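import Vale.Agent.P218CH.AbB
import Vale.Agent.P218EN.Solve
import Vale.Agent.P218E2.Std
import Vale.Agent.P218E2.Gw

/-! Existence of the family of solutions of the end problem. -/

namespace Vale.Agent.P218CH
open Set Complex Metric Vale.Agent.P218EN Vale.Agent.P218EN.WA
open Vale.Agent.P218E2 (NT coef_mono bd_scale)

variable {V : Type*} [NormedAddCommGroup V] [NormedSpace ℂ V]

lemma bd_unscale {S : Set ℝ} {σ ω : ℝ → ℝ} {x : WA} {R B : ℝ} (hR : 0 ≤ R)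
    (h : Bd S (fun w => R * σ w) (fun w => R * ω w) x B) : Bd S σ ω x (R * B) :=
  h.weaken hR (fun _ _ => le_rfl) fun _ _ => le_rfl

lemma gb_scale {a b s C R : ℝ} {A : ℝ → ℂ} {τ ρ : ℤ → ℝ} {d σ ω : ℝ → ℝ}
    (O : GB a b s A τ ρ d σ ω C) (hR : 0 < R) :
    GB a b s A τ (fun k => R * ρ k) d (fun w => R * σ w) (fun w => R * ω w) C := by
  have e : ∀ (σ ω : ℝ → ℝ) k w, wt (fun w => R * σ w) (fun w => R * ω w) k w = R * wt σ ω k w :=
    fun σ ω k w => by unfold wt; split_ifs <;> rfl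
  refine ⟨O.hs, O.one, fun k => mul_nonneg hR.le (O.rho k),
    fun w hw => ⟨mul_pos hR (O.pos w hw).1, mul_pos hR (O.pos w hw).2⟩,
    ⟨continuousOn_const.mul O.cont.1, continuousOn_const.mul O.cont.2⟩, O.dlo, O.dhi,
    fun k y p g c h hc hg ha hb w hw => ?_⟩
  have := O.est k y p g (c * R) h (by positivity) (fun u hu => (hg u hu).trans_eq (by
    rw [mul_assoc, ← e]; congr 2; funext x; ring)) (by rwa [mul_assoc])
    (by rwa [mul_assoc, ← e]) w hw
  simpa only [e, mul_assoc] using this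

lemma base_down {a b ε R : ℝ} {α : ℂ} {d σ ω : ℝ → ℝ} (H : Base a b α ε d σ ω) (hR : 0 < R)
    (hR1 : R ≤ 1) (h : ε / R ≤ 1 / 1000) (he : ‖ef α b‖ ≤ R * ω b) :
    Base a b α (ε / R) d (fun w => R * σ w) fun w => R * ω w := by
  have S := H.sys
  have e0 := S.e0
  have e1 : ε ≤ ε / R := by rw [le_div_iff₀ hR]; nlinarith
  have k : ∀ w, ε / R * (R * σ w) = ε * σ w := fun w => by field_simp
  have s0 := fun w hw => mul_nonneg hR.le (S.s0 w hw)
  have o0 := fun w hw => mul_nonneg hR.le (S.o0 w hw)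
  have m : ∀ w ∈ Icc a b, ∀ x, 0 ≤ x → x ≤ ε * d w → R * x ≤ ε / R * d w := fun w hw x x0 hx => by
    nlinarith [mul_le_mul_of_nonneg_right e1 (S.d0 w hw)]
  refine ⟨H.pos, coef_mono H.coef e1 h, ⟨by positivity, by linarith, S.d0, S.d1, s0, o0, s0, o0,
    fun w hw => m w hw _ (S.s0 w hw) (S.sd w hw), fun w hw => m w hw _ (S.o0 w hw) (S.od w hw),
    fun w hw => ?_, fun w hw => ?_⟩, fun w hw => k w ▸ H.hA w hw, fun w hw => k w ▸ H.hx w hw,
    fun w hw => k w ▸ H.he w hw, he⟩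
  · have h1 := mul_nonneg (S.o0 w hw) (S.o0 w hw)
    rw [k]
    nlinarith [S.oo w hw, mul_le_of_le_one_left h1 (mul_le_one₀ hR1 hR.le hR1)]
  · rw [mul_comm]
    exact mul_le_mul_of_nonneg_right (m w hw _ (S.s0 w hw) (S.sd w hw)) (o0 w hw)

lemma co_hi (x : WA) (k : ℤ) (w : ℝ) :
    (hi x).co k w = if 2 ≤ kp (-2) k then x.co k w else 0 := by
  simp only [hi, co_diag]
  split_ifs <;> simp

lemma co_xi (a : ℝ) (JS : Fin 6 → WA) (α : ℂ) (k : ℤ) (w : ℝ) : (xi a JS α).co k w =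
    if 2 ≤ kp (-2) k then mu α 0 a * (JS 0 - JS 2).co k w else 0 := by
  simp only [xi, co_smul, BoundedContinuousFunction.smul_apply, co_hi, smul_eq_mul]
  split_ifs <;> simp

lemma conj_rA {a b w : ℝ} {x : ℝ} (h : Prof a b x) (hw : w ∈ Icc a b) :
    starRingEnd ℂ (rA x w) = rA x w := conj_sqrt (conj_Af x w) (h.A_re hw)

lemma conj_rA0 {a b w : ℝ} (ha : 0 < a) (hw : w ∈ Icc a b) :
    starRingEnd ℂ (rA 0 w) = rA 0 w := by
  simpa using conj_rA (x := 0) (by simpa using Prof.zero ha) hw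

lemma cj_ab {a L x : ℝ} (hL : a ≤ L) (h : Prof a L x) (J : Fin 6 → WA) (i : Fin 6) :
    cj (ab a L x J i) = ab a L x (fun i => cj (J i)) i := by
  refine ev_inj fun w θ => ?_
  have m := cl_mem hL w
  have h0 : Prof a L 0 := Prof.zero h.pos
  have e0 : starRingEnd ℂ (Af 0 (cl a L w)) = Af 0 (cl a L w) := by simpa using conj_Af 0 _
  rw [ev_cj]
  simp only [ab, ev_comp]
  fin_cases i <;>
    simp [ev_rp0 h0 h _ m, ev_rp1 h0 h _ m, ev_rp2 h0 h _ m, ev_rp3 h0 h _ m, ev_rp4 h0 h _ m,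
      ev_rp5 h0 h _ m, ev_cj, mu, c1, c2, c4, conj_rA h m, conj_rA0 h.pos m, conj_Af, conj_xf, e0,
      map_ofNat]

lemma nt_low {a w : ℝ} {α : ℂ} (p : Pt a α w) (hw : w ≤ 2 * a) (h : NT w w α) :
    (√a)⁻¹ / 8 ≤ dl (Af α) w * om a α w ∧ (√a)⁻¹ / 8 ≤ sg a α w := by
  have m := left_mem_Icc.2 (le_refl w)
  have h1 : 1 / 4 ≤ a * tau α w := by
    rw [p.tau_eq, ← mul_div_assoc, le_div_iff₀ p.w_pos]
    nlinarith [(h.v m).2.1, p.a0_pos]
  have h2 : (1 / 4 : ℝ) ≤ (a * tau α w) ^ (7 / 8 : ℝ) :=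
    le_trans (by
      simpa using Real.rpow_le_rpow_of_exponent_ge (x := 1 / 4) (y := 1) (z := 7 / 8)
        (by norm_num) (by norm_num) (by norm_num))
      (Real.rpow_le_rpow (by norm_num) h1 (by norm_num))
  have h3 : (√a)⁻¹ * (1 / 4) ≤ om a α w := by
    unfold om; have := p.s_pos; gcongr
  have h4 : (√a)⁻¹ / 8 ≤ dl (Af α) w * om a α w := by
    nlinarith [h.dl_ge m, p.om_pos]
  exact ⟨h4, h4.trans (mul_le_mul_of_nonneg_left (le_add_of_nonneg_right p.mu_pos.le) p.dl_pos.le)⟩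

namespace Collar
variable {a s r R W K : ℝ} {RV : Set V} {Cf : V × (Fin 6 → WA) → WA} (h : Collar a s r R RV Cf)
  {α : ℂ} {v : V} {J J' : Fin 6 → WA}
include h

lemma big' : 10 ^ 30 ≤ a := by
  have h1 : R ^ 2 ≤ 1 := pow_le_one₀ h.R_pos.le h.R_le
  have h2 : 0 < R ^ 2 * a := lt_of_lt_of_le (by norm_num) h.big
  have h3 : 0 < a := (mul_pos_iff_of_pos_left (pow_pos h.R_pos 2)).1 h2
  nlinarith [h.big]

lemma a_pos : 0 < a := lt_of_lt_of_le (by norm_num) h.big'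

lemma le2 : s ≤ 2 * a := by linarith [h.le', h.big']

lemma sq_ge : 10 ^ 15 ≤ R * √a := by
  refine le_of_sq_le_sq ?_ (by have := h.R_pos; positivity)
  rw [mul_pow, Real.sq_sqrt h.a_pos.le]
  linarith [h.big]

lemma e_pos : 0 < R * ep a := mul_pos h.R_pos (ep_pos h.a_pos)

lemma e_le : R * ep a ≤ 1 / 1000 := by
  have h1 : 0 < √a := Real.sqrt_pos.2 h.a_pos
  have h2 : R * √a ≤ √a := mul_le_of_le_one_left h1.le h.R_le
  have h3 : ep a ≤ 1 / 1000 := by rw [ep, div_le_iff₀ h1]; linarith [h.sq_ge]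
  nlinarith [h.R_le, ep_pos h.a_pos]

/-- smallness of the profile parameter on the collar -/
lemma small_of (hW : a ^ 2 ≤ W) (hα : ‖α‖ * W ≤ 7) : 16 * (‖α‖ * s) ≤ R * ep a := by
  have h0 := h.a_pos
  have h1 : 0 < √a := Real.sqrt_pos.2 h0
  have h2 : ‖α‖ * a ^ 2 ≤ 7 := (mul_le_mul_of_nonneg_left hW (norm_nonneg _)).trans hα
  have h3 : ‖α‖ * s ≤ ‖α‖ * (2 * a) := mul_le_mul_of_nonneg_left h.le2 (norm_nonneg _)
  rw [ep, ← mul_div_assoc, le_div_iff₀ h1]
  refine le_of_mul_le_mul_right ?_ h0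
  have h4 : R * a = R * √a * √a := by rw [mul_assoc, Real.mul_self_sqrt h0.le]
  nlinarith [h.sq_ge, mul_le_mul_of_nonneg_right h3 (mul_pos h1 h0).le,
    mul_le_mul_of_nonneg_right h2 h1.le]

lemma flat (hs : 16 * (‖α‖ * s) ≤ R * ep a) : Flat a s α :=
  ⟨by linarith [h.big'], h.le, by linarith [h.e_le]⟩

lemma ab_le (hs : 16 * (‖α‖ * s) ≤ R * ep a) (hJ : ‖clp a s J‖ ≤ R * ep a) :
    ‖ab a s α J‖ ≤ 2 * (R * ep a) := by
  have h1 := (h.flat hs).ab_sub_le J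
  have h2 := norm_le_norm_sub_add (ab a s α J) (clp a s J)
  have h3 : 0 ≤ ‖α‖ * s := mul_nonneg (norm_nonneg _) (h.a_pos.le.trans h.le)
  nlinarith [h.e_le, norm_nonneg (clp a s J)]

lemma src_supp (k : ℤ) {w : ℝ} (hw : s ≤ w) : (src a s Cf α v J).co k w = 0 := by
  rw [src, fn, co_sc_mul, h.supp _ _ k w hw, mul_zero]

lemma src_le (hf : Flat a s α) (hv : v ∈ ball (0 : V) r) (hJ : ‖ab a s α J‖ ≤ 2 * (R * ep a)) :
    ‖src a s Cf α v J‖ ≤ 2 * (R * ep a / 10 ^ 12) :=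
  (norm_mul_le _ _).trans (mul_le_mul hf.norm_mu_sq (h.bd v hv _ (mem_ball_zero_iff.2
    (by linarith [h.e_pos]))) (norm_nonneg _) zero_le_two)

lemma diff_J (hv : v ∈ ball (0 : V) r) : Differentiable ℂ fun J => Cf (v, J) :=
  differentiableOn_univ.1 (h.holo.comp (by fun_prop) fun J _ => ⟨hv, mem_univ J⟩)

lemma cf_lip (hv : v ∈ ball (0 : V) r) (hJ : ‖J‖ ≤ 4 * (R * ep a)) (hJ' : ‖J'‖ ≤ 4 * (R * ep a)) :
    ‖Cf (v, J) - Cf (v, J')‖ ≤ 1 / (5 * 10 ^ 12) * ‖J - J'‖ := by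
  have e := h.e_pos
  have := P218CO.lip_inner (f := fun J => Cf (v, J)) (c := 0) (R := 10 * (R * ep a))
    (r := 5 * (R * ep a)) (x := J) (y := J') (by positivity) (h.diff_J hv).differentiableOn
    (h.bd v hv) (mem_ball_zero_iff.2 (by linarith)) (mem_ball_zero_iff.2 (by linarith))
  generalize R * ep a = t at *
  rwa [show t / 10 ^ 12 / (5 * t) = 1 / (5 * 10 ^ 12) by field_simp] at this

/-- the source is Lipschitz in the jets on the collar -/
theorem src_lip (hf : Flat a s α) (hv : v ∈ ball (0 : V) r)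
    (hJ : ‖ab a s α J‖ ≤ 4 * (R * ep a)) (hJ' : ‖ab a s α J'‖ ≤ 4 * (R * ep a)) {B : ℝ}
    (hB : ∀ i, Bd (Icc a s) 1 1 (J i - J' i) B) :
    ‖src a s Cf α v J - src a s Cf α v J'‖ ≤ 2 / 10 ^ 12 * B := by
  have h1 := norm_clp_le (J := J - J') h.le zero_le_one hB fun _ _ => ⟨le_rfl, le_rfl⟩
  have h2 := hf.ab_lip J J'
  have h3 := h.cf_lip hv hJ hJ'
  rw [src, src, ← mul_sub]
  refine (norm_mul_le _ _).trans ((mul_le_mul hf.norm_mu_sq h3 (norm_nonneg _)
    zero_le_two).trans ?_)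
  linarith

lemma clp_le {b B : ℝ} (hr : Rg a a b α) (hb : s ≤ b)
    (hJ : ∀ i, Bd (Icc a b) (sg a α) (om a α) (J i) B) : ‖clp a s J‖ ≤ ep a * B :=
  norm_clp_le h.le hr.ep_pos.le (fun i => (hJ i).subset (Icc_subset_Icc_right hb))
    fun _ hw => hr.base.sig_le ⟨hw.1, hw.2.trans hb⟩

lemma s_le (hW : a ^ 2 ≤ W) : s ≤ W := by nlinarith [h.le2, h.big']

lemma cj_src {x : ℝ} (hf : Flat a s x) (hv : v ∈ RV) :
    cj (src a s Cf x v J) = src a s Cf x v fun i => cj (J i) := by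
  have e : cj (fn a s fun w => mu x 0 w ^ 2) = fn a s fun w => mu x 0 w ^ 2 :=
    ev_inj fun w θ => by
      have m := cl_mem h.le w
      rw [ev_cj, fn, ev_sc, mkB_apply (f := fun w => mu x 0 w ^ 2) h.le
        ((cmu hf.prof hf.prof0).pow 2)]
      simp [mu, conj_rA hf.prof m, conj_rA0 h.a_pos m]
  rw [src, show ∀ x y, cj (x * y) = cj x * cj y from map_mul cjR, e, h.real v hv, src]
  simp only [cj_ab h.le hf.prof]

end Collar

lemma bd_supp {a s b t : ℝ} {σ ω : ℝ → ℝ} {x : WA} (ht : 0 < t)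
    (h0 : ∀ k w, s ≤ w → x.co k w = 0) (h1 : ∀ w ∈ Icc a b, 0 ≤ σ w ∧ 0 ≤ ω w)
    (h2 : ∀ w ∈ Icc a b, w ≤ s → t ≤ σ w ∧ t ≤ ω w) : Bd (Icc a b) σ ω x (t⁻¹ * ‖x‖) := by
  refine (Bd.of_norm _ x).of_le (inv_pos.2 ht).le fun k w hw c hc hx => ?_
  have e : wt 1 1 k w = 1 := by unfold wt; split_ifs <;> rfl
  rw [e, mul_one] at hx
  rcases le_total w s with h | h
  · have : t ≤ wt σ ω k w := by unfold wt; split_ifs; exacts [(h2 w hw h).1, (h2 w hw h).2]
    calc _ ≤ t⁻¹ * c * t := by rwa [mul_right_comm, inv_mul_cancel₀ ht.ne', one_mul]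
      _ ≤ _ := by gcongr
  · have : 0 ≤ wt σ ω k w := by unfold wt; split_ifs; exacts [(h1 w hw).1, (h1 w hw).2]
    rw [h0 k w h, norm_zero]; positivity

namespace EndIn
variable {a s r R W K : ℝ} {RV : Set V} {Cf : V × (Fin 6 → WA) → WA} {JS : Fin 6 → WA}
  (h : EndIn a s r R K RV Cf JS) {α : ℂ} {v : V} {J J' : Fin 6 → WA}
include h

lemma K_big : 4000000 ≤ K := by linarith [h.hK, h.big']

lemma W_ge (hW : a ^ 2 ≤ W) : a ≤ W := h.le.trans (h.s_le hW)

lemma W_pos (hW : a ^ 2 ≤ W) : 0 < W := h.a_pos.trans_le (h.W_ge hW)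

lemma rg (hW : a ^ 2 ≤ W) (hα : α ∈ D W K) : Rg a a W α :=
  Rg.of_disc h.big' le_rfl (h.W_ge hW) le_rfl h.hK (le_of_lt hα)

lemma small (hW : a ^ 2 ≤ W) (hα : α ∈ D W K) : 16 * (‖α‖ * s) ≤ R * ep a :=
  h.small_of hW ((le_div_iff₀ (h.W_pos hW)).1
    (norm_lt (h.W_pos hW) (by linarith [h.K_big]) hα).le)

lemma cj_xi {x : ℝ} (hf : Flat a s x) : cj (xi a JS x) = xi a JS x := by
  refine ext'' fun k w => ?_
  have m := left_mem_Icc.2 h.le
  have e : kp (-2) (-k) = kp (-2) k := by simp [kp]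
  have e1 : ∀ i, starRingEnd ℂ ((JS i).co (-k) w) = (JS i).co k w := fun i => by
    rw [← co_cj, h.realS]
  rw [co_cj, co_xi, co_xi, e]
  split_ifs <;> simp [mu, conj_rA hf.prof m, conj_rA0 h.a_pos m, e1]

lemma bd_xi {b : ℝ} (hr : Rg a a b α) (hf : Flat a s α) :
    BdX (pt a b (-2)) (fun k => R * wt (sg a α) (om a α) k (pt a b (-2) k)) (xi a JS α)
      (32 / 10 ^ 12) := by
  have m := left_mem_Icc.2 h.le
  have p := hr.pt (left_mem_Icc.2 hr.le)
  obtain ⟨c, c0, c1, c2, c3⟩ := (h.bdS 0).sub (h.bdS 2)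
  have R0 := h.R_pos
  refine ⟨fun k => 16 / R * c k, fun k => by have := c0 k; positivity, c1.mul_left _, ?_,
    fun k => ?_⟩
  · rw [tsum_mul_left, div_mul_eq_mul_div, div_le_iff₀ R0]; linarith
  rw [co_xi]
  split_ifs with hk
  · have k0 : k ≠ 0 := by rintro rfl; norm_num [kp] at hk
    have h1 := c3 k a (mem_Ici.2 le_rfl)
    have h2 : ‖mu α 0 a‖ ≤ 2 := by
      have := norm_le_norm_sub_add (mu α 0 a) 1
      rw [norm_one] at this
      linarith [(hf.facts m).2.1, hf.small]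
    have h3 : om a 0 a = (√a)⁻¹ := by simp [om, tau, abs_of_pos h.a_pos, h.a_pos.ne']
    have h4 := (nt_low p (by linarith [h.a_pos]) ⟨by linarith [h.big'], le_rfl,
      (hf.mono le_rfl h.le).small⟩).1.trans (mul_le_of_le_one_left p.om_pos.le p.dl_le)
    simp only [pt, if_pos hk, wt_ne _ _ k0, h3] at h1 ⊢
    rw [norm_mul]
    refine (mul_le_mul h2 h1 (norm_nonneg _) zero_le_two).trans ?_
    rw [show 16 / R * c k * (R * om a α a) = 2 * (c k * (8 * om a α a)) by field_simp; ring]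
    have := c0 k
    gcongr
    linarith
  · have := c0 k
    have := (hr.gb.rho k)
    rw [norm_zero]; positivity

lemma ef_le (p : Pt a α W) : ‖ef α W‖ ≤ R * om a α W := by
  have ha := p.a0_pos
  have hz := mul_pos ha p.tau_pos
  have z8 : a * tau α W ≤ 8 := by
    have := mul_le_mul p.le p.tau_le p.tau_pos.le p.w_pos.le
    rwa [mul_left_comm, mul_inv_cancel₀ p.w_pos.ne', mul_one] at this
  have key : a * tau α W ≤ 8 * (a * tau α W) ^ (7 / 8 : ℝ) := by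
    refine le_of_pow_le_pow_left₀ (n := 8 * 1) (by norm_num) (by positivity) ?_
    rw [mul_pow 8, Pt.pow_rpow hz.le, mul_one, mul_one, pow_succ' (a * tau α W) 7]
    gcongr
    linarith
  have s0 := p.s_pos
  rw [p.norm_ef, om, ← mul_assoc, ← div_eq_mul_inv, div_mul_eq_mul_div, le_div_iff₀ s0]
  refine le_of_mul_le_mul_right ?_ s0
  rw [mul_assoc, Real.mul_self_sqrt ha.le]
  have := Real.rpow_pos_of_pos hz (7 / 8 : ℝ)
  nlinarith [mul_le_mul_of_nonneg_right h.sq_ge this.le]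

theorem exists_level (hW : a ^ 2 ≤ W) : ∃ J : ℂ × V → Fin 6 → WA,
    DifferentiableOn ℂ J (D W K ×ˢ ball 0 r) ∧ ∀ q ∈ D W K ×ˢ ball (0 : V) r, Clamp a W (J q) ∧
      (∀ i, Bd (Icc a W) (sg a q.1) (om a q.1) (J q i) (R / 8)) ∧
      Sol a W q.1 (J q) (src a s Cf q.1 q.2 (J q)) (xi a JS q.1) 0 ∧
      ∀ J', Clamp a W J' → (∀ i, Bd (Icc a W) (sg a q.1) (om a q.1) (J' i) R) →
        Sol a W q.1 J' (src a s Cf q.1 q.2 J') (xi a JS q.1) 0 → J' = J q := by
  have R0 := h.R_pos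
  have s0 : 0 < √a := Real.sqrt_pos.2 h.a_pos
  have hU : IsOpen (D W K ×ˢ ball (0 : V) r) := (isOpen_D (h.W_pos hW)).prod isOpen_ball
  have fl : ∀ {α}, α ∈ D W K → Flat a s α := fun hα => h.flat (h.small hW hα)
  have he : 10000000 * 3000000 * (ep a / R) ≤ 1 := by
    rw [ep, div_div, ← mul_div_assoc, div_le_one (by positivity)]
    linarith [h.sq_ge]
  have z : ∀ σ ω : ℝ → ℝ, Bd {W} σ ω 0 (1000 * 3000000 : ℝ)⁻¹ := fun σ ω =>
    (Bd.zero _ _ _).mono (by norm_num)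
  obtain ⟨J, hd, hJ⟩ := solve hU (a := a) (b := W) (ε := ep a / R) (C := 3000000) (al := Prod.fst)
    (d := fun q => dl (Af q.1)) (σ := fun q w => R * sg a q.1 w) (ω := fun q w => R * om a q.1 w)
    (ρ := fun q k => R * wt (sg a q.1) (om a q.1) k (pt a W (-2) k)) differentiableOn_fst
    (fun q hq => base_down (h.rg hW hq.1).base R0 h.R_le (by linarith)
      (h.ef_le ((h.rg hW hq.1).pt (right_mem_Icc.2 (h.W_ge hW)))))
    (fun q hq => gb_scale (h.rg hW hq.1).gb R0) (fun q _ => by simp [pt_zero])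
    (div_pos (ep_pos h.a_pos) R0) he (F := fun z => src a s Cf z.1.1 z.1.2 z.2)
    (by
      have o := hU.prod (isOpen_ball (x := (0 : Fin 6 → WA)) (ε := 3 * (ep a / R)))
      have d1 : ∀ U, DifferentiableOn ℂ (fun z : (ℂ × V) × (Fin 6 → WA) => z.1.1) U :=
        fun _ => by fun_prop
      exact (diff_mu_sq h.le o (d1 _) fun z hz => fl hz.1.1).mul (h.holo.comp
        (DifferentiableOn.prodMk (by fun_prop)
          (diff_ab h.le o (d1 _) (fun z hz => fl hz.1.1) differentiableOn_snd))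
        fun z hz => ⟨hz.1.2, mem_univ _⟩))
    (ξ := fun q => xi a JS q.1) (γ := fun _ => 0) (γ1 := fun _ => 0)
    ((diff_mu differentiableOn_fst (fun z hz => fl hz.1) (left_mem_Icc.2 h.le)).2.smul_const _)
    (differentiableOn_const _) (differentiableOn_const _) (fun _ _ k w _ => by simp)
    (fun q hq J _ hJ => by
      have hr := h.rg hW hq.1
      have h1 := h.clp_le hr (h.s_le hW) fun i => bd_unscale R0.le (hJ i)
      have h2 := h.src_le (fl hq.1) hq.2 (h.ab_le (h.small hW hq.1) (by linarith))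
      refine (bd_supp (t := R * ((√a)⁻¹ / 8)) (by positivity) (fun k w hw => h.src_supp k hw)
        (fun w hw => ?_) fun w hw hs => ?_).mono ?_
      · have p := hr.pt hw
        exact ⟨mul_nonneg R0.le p.sg_pos.le,
          mul_nonneg p.dl_pos.le (mul_nonneg R0.le p.om_pos.le)⟩
      · have := nt_low (hr.pt hw) (hs.trans h.le2)
          ⟨by linarith [h.big', hw.1], le_rfl, ((fl hq.1).mono hw.1 hs).small⟩
        rw [mul_left_comm]
        exact ⟨mul_le_mul_of_nonneg_left this.2 R0.le, mul_le_mul_of_nonneg_left this.1 R0.le⟩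
      · rw [inv_mul_le_iff₀ (by positivity)]
        refine h2.trans ?_
        rw [ep, div_eq_mul_inv 10]
        nlinarith [mul_pos R0 (inv_pos.2 s0)])
    (fun q hq => (h.bd_xi (h.rg hW hq.1) (fl hq.1)).mono (by norm_num))
    (fun _ _ => z _ _) (fun _ _ => z _ _)
  refine ⟨J, hd, fun q hq => ⟨(hJ q hq).1, fun i => ?_, (hJ q hq).2.2.1,
    fun J' c b => (hJ q hq).2.2.2 J' c fun i => bd_scale R0 (b i)⟩⟩
  simpa [div_eq_mul_inv] using bd_unscale R0.le ((hJ q hq).2.1 i)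

/-- **existence of the family of end solutions** -/
theorem exists_endFam : ∃ J, EndFam a s r R K RV Cf JS J := by
  choose! J hd hJ using fun W hW => h.exists_level (W := W) hW
  refine ⟨J, hd, fun W hW q hq => (hJ W hW q hq).1, fun W hW q hq => (hJ W hW q hq).2.1,
    fun W hW q hq => (hJ W hW q hq).2.2.1, fun W hW q hq => (hJ W hW q hq).2.2.2,
    fun W hW q hq hi hv => ?_⟩
  obtain ⟨c, b, so, u⟩ := hJ W hW q hq
  obtain ⟨α, v⟩ := q
  obtain ⟨x, rfl⟩ : ∃ x : ℝ, α = x := ⟨α.re, Complex.ext rfl (by simpa using hi)⟩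
  have fl := h.flat (h.small hW hq.1)
  have := (h.rg hW hq.1).base.cj so
  rw [h.cj_src fl hv, h.cj_xi fl, show cj 0 = 0 from map_zero cjR] at this
  exact congrFun (u _ (fun i => ext'' fun k w => by rw [← c i]; simp [cl_cl (h.W_ge hW)])
    (fun i => (b i).cj.mono (by linarith [h.R_pos])) this)

end EndIn

end Vale.Agent.P218CH
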