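import Vale.Agent.P218CH.CanA
import Vale.Agent.P218E2.Fam

/-! The canonical expansion: existence of the coefficients. -/

namespace Vale.Agent.P218CH
open Set Complex Metric Filter Topology Vale.Agent.P218EN

variable {V : Type*} [NormedAddCommGroup V] [NormedSpace ℂ V] {a s r R K L : ℝ} {RV : Set V}
  {Cf : V × (Fin 6 → WA) → WA} {JS : Fin 6 → WA} {J : ℝ → ℂ × V → Fin 6 → WA}

theorem stepAt (I : EndIn a s r R K RV Cf JS) (F : EndFam a s r R K RV Cf JS J) (ha : 10 ^ 34 ≤ a)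
    (hL : a ≤ L) : StepAt a r K L JS J := by
  obtain ⟨C, -, h⟩ := P218E2.fam_step I F ha
  obtain ⟨C', -, h'⟩ := P218E2.fam_stepS I F ha
  have t : Tendsto (fun c : ℝ => C * c ^ (-(1 / 2) : ℝ)) atTop (𝓝 (C * 0)) :=
    (tendsto_rpow_neg_atTop (by norm_num)).const_mul C
  rw [mul_zero] at t
  obtain ⟨c0, h0⟩ := eventually_atTop.1 ((t.eventually_le_const (by norm_num : (0 : ℝ) < 1 / 64)).and
    ((eventually_ge_atTop (a ^ 2)).and ((eventually_ge_atTop (4 * K)).and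
      (eventually_ge_atTop (2 * L)))))
  refine ⟨max C C' * L ^ (3 / 8 : ℝ), c0, fun c hc => ?_⟩
  obtain ⟨a0, a1, a2, a3⟩ := h0 c hc
  have c0 := I.W_pos a1
  have p := (ph_pos c0).le
  have l : 0 ≤ L ^ (3 / 8 : ℝ) := Real.rpow_nonneg (by linarith [I.a_pos]) _
  refine ⟨fun W h2 h32 α' hα hs v hv => ?_, ?_⟩
  · obtain ⟨b1, -, b2, -, b3⟩ := h W c L α' v a1 a2 h2 h32 hα hv hs hL a3 _ rfl
    refine ⟨b1, le_trans ?_ a0, b3.trans ?_⟩
    · refine (mul_le_mul_of_nonneg_right b2 c0.le).trans (le_of_eq ?_)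
      rw [mul_assoc, ← Real.rpow_add_one c0.ne']
      norm_num
    · exact mul_le_mul_of_nonneg_right (mul_le_mul_of_nonneg_right (le_max_left _ _) l) p
  · obtain ⟨b1, -, -, b2⟩ := h' c L a1 a2 hL a3 _ rfl
    exact ⟨_, b1, b2.trans
      (mul_le_mul_of_nonneg_right (mul_le_mul_of_nonneg_right (le_max_right _ _) l) p)⟩

theorem exists_coef (I : EndIn a s r R K RV Cf JS) (F : EndFam a s r R K RV Cf JS J)
    (ha : 10 ^ 34 ≤ a) : ∃ Y : ℝ → Fin 3 → V → Fin 6 → WA,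
      (∀ L, a ≤ L → ∀ n, DifferentiableOn ℂ (Y L n) (ball 0 r)) ∧
      (∀ L, a ≤ L → ∃ B : ℝ, ∀ n, ∀ v ∈ ball (0 : V) r, ‖Y L n v‖ ≤ B) ∧
      (∀ L, a ≤ L → ∃ C W1 : ℝ, ∀ W, W1 ≤ W → ∀ q ∈ D W K ×ˢ ball (0 : V) r,
        ‖ab a L q.1 (J W q) - Yt (Y L) (P218TP.GG W q.1) q.2‖ ≤ C * W ^ (-(2 + 1 / 8) : ℝ)) ∧
      ∀ L, a ≤ L → Y L 0 0 = clp a L JS := by
  choose! Y h1 h2 h3 h4 using fun L hL => can_hard I F hL (stepAt (L := L) I F ha hL)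
  exact ⟨Y, h1, h2, h3, h4⟩

end Vale.Agent.P218CH
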