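import Vale.Agent.P218SQ.Defs
import Vale.Agent.P218CO.Holo

/-! The disc of admissible profile parameters and the model tip function. -/

open Set Filter Metric Topology

namespace Vale.Agent.P218CH

/-- admissible profile parameters for the cut `W`: the disc `|v - 4| < 4 - K / W`, `v = 1 - α W` -/
def D (W K : ℝ) : Set ℂ := {α | ‖1 - α * W - 4‖ < 4 - K / W}

/-- the logarithmic correction -/
noncomputable def lg (W : ℝ) (α : ℂ) : ℂ := ((Real.log W : ℝ) - Complex.log (1 - α * W)) / 2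

/-- the model tip function -/
noncomputable def g0 (W : ℝ) (α : ℂ) : ℂ := α / (1 + α * lg W α)

variable {W K : ℝ} {α α' : ℂ}

lemma D_eq_ball (hW : 0 < W) : D W K = ball ((-3 / W : ℝ) : ℂ) ((4 - K / W) / W) := by
  ext α
  have hW' : (W : ℂ) ≠ 0 := by exact_mod_cast hW.ne'
  have e : (1 - α * W - 4 : ℂ) = -((α - ((-3 / W : ℝ) : ℂ)) * W) := by
    push_cast; field_simp; ring
  simp only [D, mem_ofPred_eq, mem_ball, dist_eq_norm, e, norm_neg, norm_mul, Complex.norm_real,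
    Real.norm_of_nonneg hW.le, lt_div_iff₀ hW]

lemma isOpen_D (hW : 0 < W) : IsOpen (D W K) := D_eq_ball hW ▸ isOpen_ball

lemma convex_D (hW : 0 < W) : Convex ℝ (D W K) := D_eq_ball hW ▸ convex_ball _ _

lemma D_anti (hW : 0 < W) {K K' : ℝ} (h : K ≤ K') : D W K' ⊆ D W K := fun α hα => by
  have : K / W ≤ K' / W := by gcongr
  have h2 : ‖1 - α * W - 4‖ < 4 - K' / W := hα
  show ‖1 - α * W - 4‖ < 4 - K / W
  linarith

lemma re_gt (h : α ∈ D W K) : K / W < (1 - α * W).re := by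
  have h1 := Complex.abs_re_le_norm (1 - α * W - 4)
  have h2 : (1 - α * W - 4 : ℂ).re = (1 - α * W).re - 4 := by simp
  have h3 := neg_abs_le (1 - α * W - 4 : ℂ).re
  have h4 : ‖1 - α * W - 4‖ < 4 - K / W := h
  linarith

lemma norm_gt (h : α ∈ D W K) : K / W < ‖1 - α * W‖ :=
  (re_gt h).trans_le (Complex.re_le_norm _)

lemma norm_v_lt (hW : 0 < W) (hK : 0 ≤ K) (h : α ∈ D W K) : ‖1 - α * W‖ < 8 := by
  have h1 : ‖1 - α * W‖ ≤ ‖1 - α * W - 4‖ + ‖(4 : ℂ)‖ := by
    simpa using norm_add_le (1 - α * W - 4) 4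
  have h2 : ‖1 - α * W - 4‖ < 4 - K / W := h
  have h3 : 0 ≤ K / W := by positivity
  simp only [Complex.norm_ofNat] at h1
  linarith

lemma norm_lt (hW : 0 < W) (hK : 0 ≤ K) (h : α ∈ D W K) : ‖α‖ < 7 / W := by
  have h1 : ‖α * W‖ ≤ ‖1 - α * W - 4‖ + ‖(3 : ℂ)‖ := by
    have e : α * W = -((1 - α * W - 4) + 3) := by ring
    conv_lhs => rw [e, norm_neg]
    exact norm_add_le _ _
  have h2 : ‖1 - α * W - 4‖ < 4 - K / W := h
  have h3 : 0 ≤ K / W := by positivity
  rw [norm_mul, Complex.norm_real, Real.norm_of_nonneg hW.le] at h1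
  simp only [Complex.norm_ofNat] at h1
  rw [lt_div_iff₀ hW]
  linarith

/-- the quadratic lower bound for the real part -/
lemma re_ge_sq (hW : 0 < W) (hK : 0 ≤ K) (hKW : K ≤ 4 * W) (h : α ∈ D W K) :
    ‖1 - α * W‖ ^ 2 / 8 + K / (2 * W) ≤ (1 - α * W).re := by
  have h2 : ‖1 - α * W - 4‖ < 4 - K / W := h
  set v := 1 - α * W
  have h3 : ‖v - 4‖ ^ 2 ≤ (4 - K / W) ^ 2 := by gcongr
  have h4 : ‖v - 4‖ ^ 2 = ‖v‖ ^ 2 - 8 * v.re + 16 := by
    rw [Complex.sq_norm, Complex.sq_norm, Complex.normSq_apply, Complex.normSq_apply]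
    simp
    ring
  have h5 : K / W ≤ 4 := by rw [div_le_iff₀ hW]; linarith
  have h6 : 0 ≤ K / W := by positivity
  have h7 : K / (2 * W) = K / W / 2 := by ring
  rw [h7]
  nlinarith

/-- lower levels -/
lemma D_lower (hW : 0 < W) (hKW : K ≤ W) {w : ℝ} (hw : 0 < w) (hwW : w ≤ W)
    (h : α ∈ D W K) : ‖1 - α * w - 4‖ < 4 - K / W := by
  have h2 : ‖1 - α * W - 4‖ < 4 - K / W := h
  have hW' : (W : ℂ) ≠ 0 := by exact_mod_cast hW.ne'
  have e : (1 - α * w - 4 : ℂ) = ((w / W : ℝ) : ℂ) * (1 - α * W - 4) + ((1 - w / W : ℝ) : ℂ) * (-3) := by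
    push_cast; field_simp; ring
  have t0 : 0 < w / W := by positivity
  have t1 : w / W ≤ 1 := (div_le_one hW).2 hwW
  have t2 : K / W ≤ 1 := (div_le_one hW).2 hKW
  rw [e]
  refine (norm_add_le _ _).trans_lt ?_
  rw [norm_mul, norm_mul, Complex.norm_real, Complex.norm_real, Real.norm_of_nonneg t0.le,
    Real.norm_of_nonneg (by linarith)]
  simp only [norm_neg, Complex.norm_ofNat]
  nlinarith

lemma mem_D_of_norm (hW : 0 < W) (h : ‖α‖ * W < 1 - K / W) : α ∈ D W K := by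
  have h1 : ‖1 - α * W - 4‖ ≤ ‖α * W‖ + ‖(3 : ℂ)‖ := by
    have e : 1 - α * W - 4 = -(α * W + 3) := by ring
    rw [e, norm_neg]
    exact norm_add_le _ _
  rw [norm_mul, Complex.norm_real, Real.norm_of_nonneg hW.le] at h1
  simp only [Complex.norm_ofNat] at h1
  show ‖1 - α * W - 4‖ < 4 - K / W
  linarith

lemma ball_sub_D (hW : 0 < W) {K K' : ℝ} (h : α ∈ D W K') : ball α ((K' - K) / W ^ 2) ⊆ D W K := by
  rw [D_eq_ball hW] at h ⊢
  refine P218CO.ball_sub_ball ?_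
  rwa [show (4 - K / W) / W - (K' - K) / W ^ 2 = (4 - K' / W) / W by field_simp; ring]

lemma slit (hW : 0 < W) (hK : 0 ≤ K) (h : α ∈ D W K) : 1 - α * W ∈ Complex.slitPlane :=
  Or.inl (lt_of_le_of_lt (by positivity) (re_gt h))

lemma norm_lg_le (hW : 8 ≤ W) (hK : 1 ≤ K) (h : α ∈ D W K) : ‖lg W α‖ ≤ Real.log W + 1 := by
  have hW0 : 0 < W := by linarith
  have h1 := norm_gt h
  have h2 := norm_v_lt hW0 (by linarith) h
  have h3 : 1 / W ≤ K / W := by gcongr
  have hv : 0 < ‖1 - α * W‖ := lt_of_le_of_lt (by positivity) h1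
  have hL : 0 ≤ Real.log W := Real.log_nonneg (by linarith)
  have h4 : |Real.log ‖1 - α * W‖| ≤ Real.log W := by
    rw [abs_le]
    constructor
    · rw [← Real.log_inv, ← one_div]
      exact Real.log_le_log (by positivity) (by linarith)
    · exact Real.log_le_log hv (by linarith)
  have h5 : |(1 - α * W).arg| ≤ 2 := by
    have := (Complex.abs_arg_le_pi_div_two_iff (z := 1 - α * W)).2
      (le_trans (by positivity) (re_gt h).le)
    linarith [Real.pi_le_four]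
  have h6 : ‖Complex.log (1 - α * W)‖ ≤ Real.log W + 2 := by
    refine (Complex.norm_le_abs_re_add_abs_im _).trans ?_
    rw [Complex.log_re, Complex.log_im]
    linarith
  unfold lg
  rw [norm_div, Complex.norm_ofNat]
  have h7 := norm_sub_le ((Real.log W : ℝ) : ℂ) (Complex.log (1 - α * W))
  rw [Complex.norm_real, Real.norm_of_nonneg hL] at h7
  linarith

lemma hasDerivAt_lg (hW : 0 < W) (hK : 0 ≤ K) (h : α ∈ D W K) :
    HasDerivAt (lg W) (W / (1 - α * W) / 2) α := by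
  have h1 : HasDerivAt (fun z : ℂ => 1 - z * W) (-W) α := by
    simpa using ((hasDerivAt_id α).mul_const (W : ℂ)).const_sub 1
  have h2 := ((h1.clog (slit hW hK h)).const_sub ((Real.log W : ℝ) : ℂ)).div_const 2
  exact h2.congr_deriv (by ring)

lemma differentiableOn_lg (hW : 0 < W) (hK : 0 ≤ K) : DifferentiableOn ℂ (lg W) (D W K) :=
  fun _ h => (hasDerivAt_lg hW hK h).differentiableAt.differentiableWithinAt

lemma lg_sub_le (hW : 0 < W) (hK : 0 < K) (h : α ∈ D W K) (h' : α' ∈ D W K) :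
    ‖lg W α - lg W α'‖ ≤ W ^ 2 / (2 * K) * ‖α - α'‖ := by
  refine Convex.norm_image_sub_le_of_norm_hasDerivWithin_le (s := D W K) (f := lg W)
    (f' := fun z => W / (1 - z * W) / 2)
    (fun z hz => (hasDerivAt_lg hW hK.le hz).hasDerivWithinAt) (fun z hz => ?_) (convex_D hW) h' h
  have h1 := norm_gt hz
  have h2 : 0 < K / W := by positivity
  rw [norm_div, norm_div, Complex.norm_real, Real.norm_of_nonneg hW.le, Complex.norm_ofNat]
  calc W / ‖1 - z * W‖ / 2 ≤ W / (K / W) / 2 := by gcongr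
    _ = W ^ 2 / (2 * K) := by field_simp

lemma im_lg (hW : 0 < W) (hK : 0 ≤ K) (h : α ∈ D W K) (hα : α.im = 0) : (lg W α).im = 0 := by
  have h1 : (1 - α * W).arg = 0 := by
    rw [Complex.arg_eq_zero_iff]
    exact ⟨le_trans (by positivity) (re_gt h).le, by simp [hα]⟩
  unfold lg
  rw [Complex.div_ofNat_im, Complex.sub_im, Complex.log_im, h1]
  simp

/-- size conditions on the cut -/
def Big (K W : ℝ) : Prop := 64 ≤ W ∧ 64 * K * (Real.log W + 1) ≤ W

lemma exists_big (K : ℝ) : ∃ w0, ∀ W, w0 ≤ W → Big K W := by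
  have h1 : Tendsto (fun W : ℝ => 64 * K * ((Real.log W + 1) / W)) atTop (𝓝 (64 * K * 0)) := by
    refine Tendsto.const_mul _ ?_
    have a := Real.isLittleO_log_id_atTop.tendsto_div_nhds_zero
    have b : Tendsto (fun W : ℝ => 1 / W) atTop (𝓝 0) := tendsto_const_nhds.div_atTop tendsto_id
    simpa [add_div] using a.add b
  rw [mul_zero] at h1
  obtain ⟨w0, h⟩ := eventually_atTop.1 ((h1.eventually_le_const one_pos).and
    (eventually_ge_atTop 64))
  refine ⟨w0, fun W hW => ⟨(h W hW).2, ?_⟩⟩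
  have h2 := (h W hW).1
  have h3 : 0 < W := by linarith [(h W hW).2]
  rwa [← mul_div_assoc, div_le_one h3] at h2

lemma Big.pos (h : Big K W) : 0 < W := by linarith [h.1]

lemma Big.log_nonneg (h : Big K W) : 0 ≤ Real.log W := Real.log_nonneg (by linarith [h.1])

lemma Big.le (h : Big K W) (hK : 0 ≤ K) : 64 * K ≤ W := by
  nlinarith [h.2, h.log_nonneg]

lemma Big.mul_lg_le (hb : Big K W) (hK : 1 ≤ K) {K' : ℝ} (hK' : 1 ≤ K') (h : α ∈ D W K') :
    ‖α * lg W α‖ ≤ 1 / 8 := by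
  have h1 := norm_lg_le (by linarith [hb.1]) hK' h
  have h2 := norm_lt hb.pos (by linarith) h
  have h3 := hb.log_nonneg
  have h4 : 7 / W * (Real.log W + 1) ≤ 1 / 8 := by
    rw [div_mul_eq_mul_div, div_le_iff₀ hb.pos]
    nlinarith [hb.2]
  rw [norm_mul]
  exact (mul_le_mul h2.le h1 (norm_nonneg _) (by have := hb.pos; positivity)).trans h4

lemma Big.den_ne (hb : Big K W) (hK : 1 ≤ K) {K' : ℝ} (hK' : 1 ≤ K') (h : α ∈ D W K') :
    1 + α * lg W α ≠ 0 := by
  intro h0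
  have h1 := hb.mul_lg_le hK hK' h
  have : α * lg W α = -1 := by linear_combination h0
  rw [this] at h1
  norm_num at h1

lemma Big.den_le (hb : Big K W) (hK : 1 ≤ K) {K' : ℝ} (hK' : 1 ≤ K') (h : α ∈ D W K') :
    ‖1 + α * lg W α‖ ≤ 9 / 8 := by
  have := norm_add_le 1 (α * lg W α)
  rw [norm_one] at this
  linarith [hb.mul_lg_le hK hK' h]

lemma Big.den_ge (hb : Big K W) (hK : 1 ≤ K) {K' : ℝ} (hK' : 1 ≤ K') (h : α ∈ D W K') :
    7 / 8 ≤ ‖1 + α * lg W α‖ := by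
  have := norm_sub_le (1 + α * lg W α) (α * lg W α)
  rw [add_sub_cancel_right, norm_one] at this
  linarith [hb.mul_lg_le hK hK' h]

lemma Big.differentiableOn_g0 (hb : Big K W) (hK : 1 ≤ K) {K' : ℝ} (hK' : 1 ≤ K') :
    DifferentiableOn ℂ (g0 W) (D W K') :=
  differentiableOn_id.div ((differentiableOn_id.mul
    (differentiableOn_lg hb.pos (by linarith))).const_add 1) fun _ h => hb.den_ne hK hK' h

lemma Big.norm_g0_le (hb : Big K W) (hK : 1 ≤ K) {K' : ℝ} (hK' : 1 ≤ K') (h : α ∈ D W K') :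
    ‖g0 W α‖ ≤ 8 / W := by
  have h1 := hb.den_ge hK hK' h
  have h2 := norm_lt hb.pos (by linarith) h
  have := hb.pos
  unfold g0
  rw [norm_div]
  calc ‖α‖ / ‖1 + α * lg W α‖ ≤ (7 / W) / (7 / 8) := by gcongr
    _ = 8 / W := by field_simp

/-- the model tip function is close to the identity -/
lemma Big.g0_sub_le (hb : Big K W) (hK : 1 ≤ K) {K' : ℝ} (hK' : 1 ≤ K') (h : α ∈ D W K') :
    ‖g0 W α - α‖ ≤ 8 / 7 * ‖α‖ ^ 2 * (Real.log W + 1) := by
  have h1 := hb.den_ge hK hK' h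
  have h2 := norm_lg_le (by linarith [hb.1]) hK' h
  have h3 := hb.den_ne hK hK' h
  have e : g0 W α - α = -(α ^ 2 * lg W α) / (1 + α * lg W α) := by
    unfold g0; field_simp; ring
  have := hb.log_nonneg
  rw [e, norm_div, norm_neg, norm_mul, norm_pow]
  calc ‖α‖ ^ 2 * ‖lg W α‖ / ‖1 + α * lg W α‖ ≤ ‖α‖ ^ 2 * (Real.log W + 1) / (7 / 8) := by gcongr
    _ = _ := by ring

lemma im_g0 (hW : 0 < W) (hK : 0 ≤ K) (h : α ∈ D W K) (hα : α.im = 0) : (g0 W α).im = 0 := by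
  have h1 := im_lg hW hK h hα
  unfold g0
  rw [Complex.div_im]
  simp [hα, h1]

/-- Lipschitz bound for the correction -/
lemma Big.mul_lg_sub_le (hb : Big K W) (hK : 1 ≤ K) (h : α ∈ D W K) (h' : α' ∈ D W K) :
    ‖α * lg W α - α' * lg W α'‖ ≤ (Real.log W + 1 + 4 * W / K) * ‖α - α'‖ := by
  have hW := hb.pos
  have e : α * lg W α - α' * lg W α' = (α - α') * lg W α + α' * (lg W α - lg W α') := by ring
  have h1 := norm_lg_le (by linarith [hb.1]) hK h
  have h2 := norm_lt hW (by linarith) h'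
  have h3 := lg_sub_le hW (by linarith) h h'
  rw [e]
  refine (norm_add_le _ _).trans ?_
  rw [norm_mul, norm_mul]
  have h4 : ‖α'‖ * ‖lg W α - lg W α'‖ ≤ 7 / W * (W ^ 2 / (2 * K) * ‖α - α'‖) := by gcongr
  have h5 : 7 / W * (W ^ 2 / (2 * K) * ‖α - α'‖) = 7 / 2 * (W / K * ‖α - α'‖) := by
    field_simp
  have h6 : ‖α - α'‖ * ‖lg W α‖ ≤ ‖α - α'‖ * (Real.log W + 1) := by gcongr
  have h7 : 0 ≤ W / K * ‖α - α'‖ := by positivity
  have h8 : (Real.log W + 1 + 4 * W / K) * ‖α - α'‖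
      = ‖α - α'‖ * (Real.log W + 1) + 4 * (W / K * ‖α - α'‖) := by ring
  linarith

end Vale.Agent.P218CH
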