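import Vale.Agent.P218CH.EndD
import Vale.Agent.P218EN.Apr

/-! Bounds and holomorphy of the absolute jets. -/

namespace Vale.Agent.P218CH
open Set Complex Metric Vale.Agent.P218EN Vale.Agent.P218EN.WA

variable {a L w : ℝ} {α : ℂ}

/-- the profile is close to one on `[a, L]` -/
structure Flat (a L : ℝ) (α : ℂ) : Prop where
  one : 1 ≤ a
  le : a ≤ L
  small : ‖α‖ * L ≤ 1 / 2

lemma co_fn_mul' {f : ℝ → ℂ} (hL : a ≤ L) (hf : ContinuousOn f (Icc a L)) (x : WA) (k : ℤ)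
    (w : ℝ) : (fn a L f * x).co k w = f (cl a L w) * x.co k w := by
  rw [fn, co_sc_mul, mkB_apply hL hf]

lemma norm_fn_le {f : ℝ → ℂ} (hL : a ≤ L) (hf : ContinuousOn f (Icc a L)) {c : ℂ} {t : ℝ}
    (h : ∀ w ∈ Icc a L, ‖f w - c‖ ≤ t) : ‖fn a L f - c • 1‖ ≤ t := by
  have t0 : 0 ≤ t := (norm_nonneg _).trans (h a (left_mem_Icc.2 hL))
  refine Bd.norm_le (Bd.of_mode0 t0 (fun w _ => ?_) fun k hk w _ => ?_)
  · simpa [fn, co_sc, co_one, mkB_apply hL hf] using h _ (cl_mem hL w)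
  · simp [fn, co_sc, co_one, hk]

lemma norm_fn_le' {f : ℝ → ℂ} (hL : a ≤ L) (hf : ContinuousOn f (Icc a L)) {t : ℝ}
    (h : ∀ w ∈ Icc a L, ‖f w‖ ≤ t) : ‖fn a L f‖ ≤ t := by
  simpa using norm_fn_le (c := 0) hL hf (by simpa using h)

lemma norm_clp_le {J : Fin 6 → WA} {σ ω : ℝ → ℝ} {B t : ℝ} (hL : a ≤ L) (ht : 0 ≤ t)
    (h : ∀ i, Bd (Icc a L) σ ω (J i) B) (h1 : ∀ w ∈ Icc a L, σ w ≤ t ∧ ω w ≤ t) :
    ‖clp a L J‖ ≤ t * B :=
  (pi_norm_le_iff_of_nonneg (mul_nonneg ht (h 0).nonneg)).2 fun i =>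
    ((h i).weaken (a' := 1) (b' := 1) ht (fun w hw => by simpa using (h1 w hw).1)
      fun w hw => by simpa using (h1 w hw).2).norm_comp_cl_le hL fun _ _ => ⟨le_rfl, le_rfl⟩

/-- clamping as a bounded linear map -/
noncomputable def clpL (a L : ℝ) : (Fin 6 → WA) →L[ℂ] (Fin 6 → WA) :=
  ContinuousLinearMap.pi fun i => (compL (cl a L)).comp (ContinuousLinearMap.proj i)

@[simp] lemma clpL_apply (J : Fin 6 → WA) : clpL a L J = clp a L J := rfl

lemma clp_sub (J J' : Fin 6 → WA) : clp a L (J - J') = clp a L J - clp a L J' :=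
  map_sub (clpL a L) J J'

lemma norm_clp_le' (J : Fin 6 → WA) : ‖clp a L J‖ ≤ ‖J‖ :=
  (pi_norm_le_iff_of_nonneg (norm_nonneg _)).2 fun i =>
    (norm_comp_le _ _).trans (norm_le_pi_norm J i)

lemma clp_clp {L' : ℝ} (hL : a ≤ L) (h : L ≤ L') (J : Fin 6 → WA) :
    clp a L (clp a L' J) = clp a L J := by
  funext i
  refine ext'' fun k w => ?_
  have m := cl_mem hL w
  simp only [clp, co_comp]
  rw [cl_of_mem ⟨m.1, m.2.trans h⟩]

lemma wEq_clp (J : Fin 6 → WA) (i : Fin 6) : WEq (Icc a L) (clp a L J i) (J i) :=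
  fun k w hw => by simp only [clp, co_comp, cl_of_mem hw]

lemma clp_congr (hL : a ≤ L) {J J' : Fin 6 → WA} (h : ∀ i, WEq (Icc a L) (J i) (J' i)) :
    clp a L J = clp a L J' :=
  funext fun i => ext'' fun k w => h i k _ (cl_mem hL w)

lemma clp_ab {L' : ℝ} (hL : a ≤ L) (hL' : L ≤ L') (h : Prof a L' α) (J : Fin 6 → WA) :
    clp a L (ab a L' α J) = ab a L α J := funext fun i => comp_ab hL hL' h J i

lemma ab_zero' (ha : 0 < a) (hL : a ≤ L) (J : Fin 6 → WA) : ab a L 0 J = clp a L J :=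
  funext fun i => ab_zero ha hL J i

lemma ab_eq (hL : a ≤ L) (h : Prof a L α) (J : Fin 6 → WA) :
    ab a L α J = rp a L 0 α (clp a L J) := by
  have h0 : Prof a L 0 := Prof.zero h.pos
  funext i
  refine ext'' fun k w => ?_
  rw [co_ab]
  fin_cases i <;>
    simp [rp, clp, co_fn_mul' hL (cmu h0 h), co_fn_mul' hL (cmu h h0), co_fn_mul' hL (cc1 h0 h),
      co_fn_mul' hL (cc2 h0 h), co_fn_mul' hL (cc4 h0 h), cl_cl hL, co_one']

namespace Flat
variable (h : Flat a L α)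
include h

lemma mul_le (hw : w ∈ Icc a L) : ‖α * w‖ ≤ ‖α‖ * L := by
  rw [norm_mul, norm_real, Real.norm_of_nonneg (by linarith [h.one, hw.1])]
  exact mul_le_mul_of_nonneg_left hw.2 (norm_nonneg _)

lemma prof : Prof a L α := by
  refine ⟨by linarith [h.one], fun w hw => ?_⟩
  have := (abs_le.1 (abs_re_le_norm (α * w))).2
  rw [sub_re, one_re]
  linarith [h.mul_le hw, h.small]

lemma prof0 : Prof a L 0 := Prof.zero h.prof.pos

lemma mono {L' : ℝ} (h1 : a ≤ L') (h2 : L' ≤ L) : Flat a L' α :=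
  ⟨h.one, h1, (mul_le_mul_of_nonneg_left h2 (norm_nonneg _)).trans h.small⟩

lemma m_sq (hw : w ∈ Icc a L) : mu 0 α w ^ 2 = 1 - α * w := by
  simpa using mu_sq' h.prof0 h.prof hw

lemma m_inv (hw : w ∈ Icc a L) : mu α 0 w * mu 0 α w = 1 := by
  have := h.prof.rA_ne hw
  have := h.prof0.rA_ne hw
  unfold mu; field_simp

lemma rA0 (hw : w ∈ Icc a L) : ∃ r : ℝ, 0 < r ∧ r ≤ 1 ∧ rA 0 w = r := by
  have h0 : 1 ≤ w := h.one.trans hw.1
  refine ⟨√((2 * w)⁻¹), Real.sqrt_pos.2 (by positivity), Real.sqrt_le_one.2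
    (inv_le_one_of_one_le₀ (by linarith)), ?_⟩
  have : Af 0 w = (((2 * w)⁻¹ : ℝ) : ℂ) := by simp [Af]
  rw [rA, this, Complex.sqrt_of_nonneg (zero_le_real.2 (by positivity))]
  rfl

lemma m_sub (hw : w ∈ Icc a L) : ‖mu 0 α w - 1‖ ≤ ‖α * w‖ := by
  obtain ⟨r, r0, -, hr⟩ := h.rA0 hw
  have h1 : 0 ≤ (mu 0 α w).re := by
    rw [mu, hr, div_eq_mul_inv, re_ofReal_mul, inv_re]
    exact mul_nonneg r0.le (div_nonneg (csqrt_re_nonneg _) (normSq_nonneg _))
  have h2 := re_le_norm (mu 0 α w + 1)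
  rw [add_re, one_re] at h2
  have h3 : (mu 0 α w - 1) * (mu 0 α w + 1) = -(α * w) := by linear_combination h.m_sq hw
  have h4 := congrArg norm h3
  rw [norm_mul, norm_neg] at h4
  nlinarith [norm_nonneg (mu 0 α w - 1)]

lemma facts (hw : w ∈ Icc a L) : ‖mu 0 α w - 1‖ ≤ ‖α‖ * L ∧ ‖mu α 0 w - 1‖ ≤ 2 * (‖α‖ * L) ∧
    ‖c1 0 α w‖ ≤ 2 * (‖α‖ * L) ∧ ‖c2 0 α w‖ ≤ 4 * (‖α‖ * L) ∧ ‖c4 0 α w‖ ≤ 3 * (‖α‖ * L) ∧
    ‖mu α 0 w ^ 2‖ ≤ 2 := by
  obtain ⟨r, r0, r1, hr⟩ := h.rA0 hw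
  have t1 := h.small
  have e1 := (h.m_sub hw).trans (h.mul_le hw)
  have e2 := h.m_inv hw
  have e3 := h.m_sq hw
  have e4 := h.mul_le hw
  have hx : xf w = (r : ℂ) ^ 2 := by rw [← hr, rA_sq]; simp [Af, xf]
  have hA0 : Af 0 w = (r : ℂ) ^ 2 := by rw [← hr, rA_sq]
  have hr' : (r : ℂ) ≠ 0 := ofReal_ne_zero.2 r0.ne'
  have hA : Af α w = mu α 0 w ^ 2 * (r : ℂ) ^ 2 := by
    rw [mu, hr, div_pow, rA_sq, div_mul_cancel₀ _ (pow_ne_zero 2 hr')]
  have f1 : c1 0 α w = -(mu 0 α w * r ^ 2 * (1 - mu α 0 w ^ 2) ^ 2) := by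
    rw [c1, hA, hA0, hx]; field_simp; ring
  have f2 : c2 0 α w = 2 * (mu α 0 w * r ^ 2 * (1 - mu α 0 w ^ 2)) := by
    rw [c2, hA, hA0, div_eq_iff (pow_ne_zero 2 hr')]
    linear_combination 2 * r ^ 4 * mu α 0 w * (1 - mu α 0 w ^ 2) * e2
  have f4 : c4 0 α w = mu 0 α w * r * (1 - mu α 0 w ^ 2) := by
    rw [c4, hA, hA0, hr]; field_simp
  have hxw : r ^ 2 ≤ 1 / 2 := by
    have := congrArg norm hx
    rw [norm_pow, norm_real, Real.norm_of_nonneg r0.le, xf, norm_inv, norm_mul, norm_real,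
      Complex.norm_two, Real.norm_of_nonneg (by linarith [h.one, hw.1])] at this
    rw [← this, one_div]
    exact inv_anti₀ two_pos (by linarith [h.one, hw.1])
  rw [f1, f2, f4]
  generalize mu 0 α w = m at *
  generalize mu α 0 w = n at *
  generalize ‖α‖ * L = T at *
  have T0 : 0 ≤ T := (norm_nonneg _).trans e1
  have m1 : ‖m‖ ≤ 3 / 2 := by
    have := norm_le_norm_sub_add m 1
    rw [norm_one] at this; linarith
  have m2 : 1 / 2 ≤ ‖m ^ 2‖ := by
    have := norm_sub_norm_le 1 (α * w)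
    rw [norm_one] at this
    rw [e3]; linarith
  have n2 : ‖n ^ 2‖ ≤ 2 := by
    have : ‖n ^ 2‖ * ‖m ^ 2‖ = 1 := by rw [← norm_mul, ← mul_pow, e2]; simp
    nlinarith [norm_nonneg (n ^ 2)]
  have n1 : ‖n‖ ≤ 2 := by rw [norm_pow] at n2; nlinarith [norm_nonneg n]
  have n3 : ‖1 - n ^ 2‖ ≤ 2 * T := by
    have : 1 - n ^ 2 = -(n ^ 2 * (α * w)) := by
      linear_combination (-(n * m + 1)) * e2 + n ^ 2 * e3
    rw [this, norm_neg, norm_mul]
    exact mul_le_mul n2 e4 (norm_nonneg _) zero_le_two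
  have n4 : ‖n - 1‖ ≤ 2 * T := by
    have : n - 1 = -(n * (m - 1)) := by linear_combination e2
    rw [this, norm_neg, norm_mul]
    exact mul_le_mul n1 e1 (norm_nonneg _) zero_le_two
  refine ⟨e1, n4, ?_, ?_, ?_, n2⟩ <;>
    simp only [norm_neg, norm_mul, norm_pow (r : ℂ), norm_pow (1 - n ^ 2), norm_real,
      Real.norm_of_nonneg r0.le, Complex.norm_two]
  · calc _ ≤ 3 / 2 * (1 / 2) * (2 * T) ^ 2 := by gcongr
      _ ≤ _ := by nlinarith
  · calc _ ≤ 2 * (2 * (1 / 2) * (2 * T)) := by gcongr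
      _ = _ := by ring
  · calc _ ≤ 3 / 2 * 1 * (2 * T) := by gcongr
      _ = _ := by ring

lemma core (e : WA) (J : Fin 6 → WA) :
    ‖![(fn a L (mu 0 α) - 1) * (e + J 0), (fn a L (mu 0 α) - 1) * J 1, (fn a L (mu 0 α) - 1) * J 2,
      (fn a L (mu 0 α) - 1) * (e + J 0) - (fn a L (mu α 0) - 1) * (e + J 0)
        + (fn a L (mu α 0) - 1) * J 3,
      fn a L (c1 0 α) * (e + J 0) + fn a L (c2 0 α) * J 3 + (fn a L (mu α 0) - 1) * J 4,
      fn a L (c4 0 α) * J 1]‖ ≤ 8 * (‖α‖ * L) * (‖e‖ + ‖J‖) := by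
  have g1 := norm_fn_le (c := 1) h.le (cmu h.prof0 h.prof) fun w hw => (h.facts hw).1
  have g2 := norm_fn_le (c := 1) h.le (cmu h.prof h.prof0) fun w hw => (h.facts hw).2.1
  have g3 := norm_fn_le' h.le (cc1 h.prof0 h.prof) fun w hw => (h.facts hw).2.2.1
  have g4 := norm_fn_le' h.le (cc2 h.prof0 h.prof) fun w hw => (h.facts hw).2.2.2.1
  have g5 := norm_fn_le' h.le (cc4 h.prof0 h.prof) fun w hw => (h.facts hw).2.2.2.2.1
  rw [one_smul] at g1 g2
  generalize ‖α‖ * L = T at *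
  have T0 : 0 ≤ T := (norm_nonneg _).trans g1
  have S0 : 0 ≤ T * (‖e‖ + ‖J‖) := by positivity
  have key : ∀ {x y : WA} {t : ℝ}, ‖x‖ ≤ t * T → ‖y‖ ≤ ‖e‖ + ‖J‖ →
      ‖x * y‖ ≤ t * (T * (‖e‖ + ‖J‖)) := fun hx hy => (norm_mul_le _ _).trans
    ((mul_le_mul hx hy (norm_nonneg _) ((norm_nonneg _).trans hx)).trans_eq (mul_assoc _ _ _))
  have j : ∀ i, ‖J i‖ ≤ ‖e‖ + ‖J‖ := fun i =>
    (norm_le_pi_norm J i).trans (le_add_of_nonneg_left (norm_nonneg _))
  have j0 : ‖e + J 0‖ ≤ ‖e‖ + ‖J‖ := (norm_add_le _ _).trans (by gcongr; exact norm_le_pi_norm J 0)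
  rw [← one_mul T] at g1
  refine (pi_norm_le_iff_of_nonneg (by positivity)).2 fun i => ?_
  fin_cases i
  · exact (key g1 j0).trans (by linarith)
  · exact (key g1 (j 1)).trans (by linarith)
  · exact (key g1 (j 2)).trans (by linarith)
  · exact (norm_add_le_of_le (norm_sub_le_of_le (key g1 j0) (key g2 j0)) (key g2 (j 3))).trans
      (by linarith)
  · exact (norm_add_le_of_le (norm_add_le_of_le (key g3 j0) (key g4 (j 3))) (key g2 (j 4))).trans
      (by linarith)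
  · exact (key g5 (j 1)).trans (by linarith)

/-- the absolute jets are close to the jets -/
theorem ab_sub_le (J : Fin 6 → WA) :
    ‖ab a L α J - clp a L J‖ ≤ 8 * (‖α‖ * L) * (1 + ‖clp a L J‖) := by
  have := h.core 1 (clp a L J)
  rw [norm_one] at this
  refine le_trans (le_of_eq (congrArg _ (funext fun i => ?_))) this
  rw [ab_eq h.le h.prof]
  fin_cases i <;> simp [rp] <;> ring

theorem ab_lip (J J' : Fin 6 → WA) : ‖ab a L α J - ab a L α J'‖ ≤ 5 * ‖clp a L (J - J')‖ := by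
  have := h.core 0 (clp a L (J - J'))
  rw [norm_zero, zero_add ‖_‖] at this
  have e : ‖ab a L α J - ab a L α J' - clp a L (J - J')‖
      ≤ 8 * (‖α‖ * L) * ‖clp a L (J - J')‖ := by
    refine le_trans (le_of_eq (congrArg _ (funext fun i => ?_))) this
    rw [ab_eq h.le h.prof, ab_eq h.le h.prof, clp_sub]
    fin_cases i <;> simp [rp] <;> ring
  have := norm_le_norm_sub_add (ab a L α J - ab a L α J') (clp a L (J - J'))
  nlinarith [h.small, norm_nonneg (clp a L (J - J'))]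

theorem norm_mu_sq : ‖fn a L fun w => mu α 0 w ^ 2‖ ≤ 2 :=
  norm_fn_le' h.le ((cmu h.prof h.prof0).pow 2) fun _ hw => (h.facts hw).2.2.2.2.2

end Flat

section
variable {E : Type*} [NormedAddCommGroup E] [NormedSpace ℂ E] {U : Set E} {al : E → ℂ}

lemma diff_A (hal : DifferentiableOn ℂ al U) (h : ∀ z ∈ U, Flat a L (al z)) (hw : w ∈ Icc a L) :
    DifferentiableOn ℂ (fun z => Af (al z) w) U :=
  (((hal.mul_const _).const_sub 1).const_mul _).inv fun z hz =>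
    mul_ne_zero (mul_ne_zero two_ne_zero ((h z hz).prof.w_ne hw)) ((h z hz).prof.v_ne hw)

lemma diff_r (hal : DifferentiableOn ℂ al U) (h : ∀ z ∈ U, Flat a L (al z)) (hw : w ∈ Icc a L) :
    DifferentiableOn ℂ (fun z => rA (al z) w) U := fun z hz =>
  (hasDerivAt_csqrt ((h z hz).prof.A_re hw)).differentiableAt.comp_differentiableWithinAt z
    (diff_A hal h hw z hz)

lemma diff_mu (hal : DifferentiableOn ℂ al U) (h : ∀ z ∈ U, Flat a L (al z)) (hw : w ∈ Icc a L) :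
    DifferentiableOn ℂ (fun z => mu 0 (al z) w) U ∧
      DifferentiableOn ℂ (fun z => mu (al z) 0 w) U :=
  by
  simp only [mu, div_eq_mul_inv]
  exact ⟨((diff_r hal h hw).inv fun z hz => (h z hz).prof.rA_ne hw).const_mul _,
    (diff_r hal h hw).mul_const _⟩

lemma diff_fn (hL : a ≤ L) (hU : IsOpen U) {f : E → ℝ → ℂ} {M : ℝ}
    (hc : ∀ z ∈ U, ContinuousOn (f z) (Icc a L)) (hM : ∀ z ∈ U, ∀ w ∈ Icc a L, ‖f z w‖ ≤ M)
    (hd : ∀ w ∈ Icc a L, DifferentiableOn ℂ (fun z => f z w) U) :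
    DifferentiableOn ℂ (fun z => fn a L (f z)) U :=
  (single 0).differentiable.comp_differentiableOn (differentiableOn_mkB hL hU hc hM hd)

lemma diff_mu_sq (hL : a ≤ L) (hU : IsOpen U) (hal : DifferentiableOn ℂ al U)
    (h : ∀ z ∈ U, Flat a L (al z)) :
    DifferentiableOn ℂ (fun z => fn a L fun w => mu (al z) 0 w ^ 2) U :=
  diff_fn hL hU (fun z hz => (cmu (h z hz).prof (h z hz).prof0).pow 2)
    (fun z hz _ hw => ((h z hz).facts hw).2.2.2.2.2) fun _ hw => (diff_mu hal h hw).2.pow 2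

theorem diff_ab (hL : a ≤ L) (hU : IsOpen U) (hal : DifferentiableOn ℂ al U)
    (h : ∀ z ∈ U, Flat a L (al z)) {J : E → Fin 6 → WA} (hJ : DifferentiableOn ℂ J U) :
    DifferentiableOn ℂ (fun z => ab a L (al z) (J z)) U := by
  have b : ∀ {x : ℂ} {t : ℝ}, ‖x - 1‖ ≤ t → ‖x‖ ≤ t + 1 := fun {x t} hx => by
    have := norm_le_norm_sub_add x 1
    rw [norm_one] at this; linarith
  have d1 := diff_fn hL hU (f := fun z => mu 0 (al z)) (M := 2)
    (fun z hz => cmu (h z hz).prof0 (h z hz).prof)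
    (fun z hz w hw => by linarith [b ((h z hz).facts hw).1, (h z hz).small])
    fun _ hw => (diff_mu hal h hw).1
  have d2 := diff_fn hL hU (f := fun z => mu (al z) 0) (M := 2)
    (fun z hz => cmu (h z hz).prof (h z hz).prof0)
    (fun z hz w hw => by linarith [b ((h z hz).facts hw).2.1, (h z hz).small])
    fun _ hw => (diff_mu hal h hw).2
  have d3 := diff_fn hL hU (f := fun z => c1 0 (al z)) (M := 2)
    (fun z hz => cc1 (h z hz).prof0 (h z hz).prof)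
    (fun z hz w hw => by linarith [((h z hz).facts hw).2.2.1, (h z hz).small])
    fun w hw => by
      have := (diff_mu hal h hw).1
      have := diff_A hal h hw
      unfold c1; fun_prop
  have d4 := diff_fn hL hU (f := fun z => c2 0 (al z)) (M := 2)
    (fun z hz => cc2 (h z hz).prof0 (h z hz).prof)
    (fun z hz w hw => by linarith [((h z hz).facts hw).2.2.2.1, (h z hz).small])
    fun w hw => by
      have := (diff_mu hal h hw).1
      have := diff_A hal h hw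
      unfold c2; fun_prop
  have d5 := diff_fn hL hU (f := fun z => c4 0 (al z)) (M := 2)
    (fun z hz => cc4 (h z hz).prof0 (h z hz).prof)
    (fun z hz w hw => by linarith [((h z hz).facts hw).2.2.2.2.1, (h z hz).small])
    fun w hw => by
      have := (diff_mu hal h hw).1
      have := diff_A hal h hw
      unfold c4; fun_prop
  have j := differentiableOn_pi.1 hJ
  refine (clpL a L).differentiable.comp_differentiableOn
    (f := fun z => rp a L 0 (al z) (J z)) (differentiableOn_pi.2 fun i => ?_)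
  fin_cases i
  · exact (d1.mul ((j 0).const_add 1)).sub_const 1
  · exact d1.mul (j 1)
  · exact d1.mul (j 2)
  · exact (d1.mul ((j 0).const_add 1)).add (d2.mul ((j 3).sub ((j 0).const_add 1)))
  · exact ((d3.mul ((j 0).const_add 1)).add (d4.mul (j 3))).add (d2.mul (j 4))
  · exact (d5.mul (j 1)).add (j 5)

end

end Vale.Agent.P218CH
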