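import Vale.Agent.P218CH.Dyad0

/-! Dyadic comparison with a change of the parameter and with holomorphic dependence on further
parameters. -/

open Set Filter Metric Topology

namespace Vale.Agent.P218CH

/-- inverse of a small holomorphic perturbation of the identity -/
lemma exists_inv {G : ℂ → ℂ} {ρ : ℝ} (hρ : 0 < ρ) (hG : DifferentiableOn ℂ G (ball 0 (2 * ρ)))
    (hG' : ∀ α ∈ ball (0 : ℂ) (2 * ρ), ‖G α - α‖ ≤ ρ / 8) :
    ∃ H : ℂ → ℂ, DifferentiableOn ℂ H (ball 0 (ρ / 2)) ∧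
      (∀ g ∈ ball (0 : ℂ) (ρ / 2), H g ∈ ball (0 : ℂ) ρ ∧ G (H g) = g) ∧
      (∀ α ∈ ball (0 : ℂ) ρ, G α ∈ ball (0 : ℂ) (ρ / 2) → H (G α) = α) ∧
      ‖deriv H 0 - 1‖ ≤ 1 / 4 ∧ ‖H 0‖ ≤ ρ / 8 ∧
      ((∀ x : ℝ, (x : ℂ) ∈ ball (0 : ℂ) ρ → (G x).im = 0) →
        ∀ g : ℝ, (g : ℂ) ∈ ball (0 : ℂ) (ρ / 2) → (H g).im = 0) := by
  have hlip : ∀ x ∈ ball (0 : ℂ) ρ, ∀ y ∈ ball (0 : ℂ) ρ,
      ‖(G x - x) - (G y - y)‖ ≤ 1 / 8 * ‖x - y‖ := by
    intro x hx y hy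
    have h := P218CO.lip_inner (f := fun z => G z - z) hρ (hG.sub differentiableOn_id) hG'
      (x := x) (y := y) (by rwa [show 2 * ρ - ρ = ρ by ring]) (by rwa [show 2 * ρ - ρ = ρ by ring])
    rwa [show ρ / 8 / ρ = 1 / 8 by field_simp] at h
  have hinj : ∀ x ∈ ball (0 : ℂ) ρ, ∀ y ∈ ball (0 : ℂ) ρ, ‖x - y‖ ≤ 8 / 7 * ‖G x - G y‖ := by
    intro x hx y hy
    have h1 := hlip x hx y hy
    have h2 : x - y = (G x - G y) - ((G x - x) - (G y - y)) := by ring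
    have h3 := norm_sub_le (G x - G y) ((G x - x) - (G y - y))
    rw [← h2] at h3
    linarith
  have hsub : ball (0 : ℂ) ρ ⊆ ball 0 (2 * ρ) := ball_subset_ball (by linarith)
  have hsub2 : closedBall (0 : ℂ) (3 / 4 * ρ) ⊆ ball 0 ρ := closedBall_subset_ball (by linarith)
  obtain ⟨H, hH, hHd⟩ := P218IN.exists_fixed_differentiableOn (𝕜 := ℂ) (U := ball (0 : ℂ) (ρ / 2))
    isOpen_ball (T := fun p : ℂ × ℂ => p.1 - (G p.2 - p.2)) (r := ρ) (r' := 3 / 4 * ρ) (q := 1 / 8)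
    (by positivity) (by linarith) (by norm_num) (by norm_num)
    (differentiableOn_fst.sub (((hG.mono hsub).comp differentiableOn_snd fun p hp => hp.2).sub
      differentiableOn_snd))
    (fun g hg x hx => by
      rw [mem_closedBall_zero_iff]
      have := mem_ball_zero_iff.1 hg
      linarith [norm_sub_le g (G x - x), hG' x (hsub (hsub2 hx))])
    (fun g _ x hx y hy => by
      have := hlip x hx y hy
      rw [← norm_neg] at this
      exact le_of_eq_of_le (congrArg _ (by ring)) this)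
  have hH' : ∀ g ∈ ball (0 : ℂ) (ρ / 2), H g ∈ ball (0 : ℂ) ρ ∧ G (H g) = g := fun g hg =>
    ⟨hsub2 (hH g hg).1, by linear_combination -(hH g hg).2⟩
  have huniq : ∀ α ∈ ball (0 : ℂ) ρ, G α ∈ ball (0 : ℂ) (ρ / 2) → H (G α) = α := by
    intro α hα hg
    have := hinj _ (hH' _ hg).1 α hα
    rw [(hH' _ hg).2, sub_self, norm_zero, mul_zero] at this
    exact sub_eq_zero.1 (norm_le_zero_iff.1 this)
  have h0 : (0 : ℂ) ∈ ball (0 : ℂ) (ρ / 2) := mem_ball_self (by positivity)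
  refine ⟨H, hHd, hH', huniq, ?_, ?_, fun hre g hg => ?_⟩
  · have hd : DifferentiableAt ℂ H 0 := hHd.differentiableAt (isOpen_ball.mem_nhds h0)
    have e : deriv H 0 - 1 = deriv (fun g => H g - g) 0 :=
      ((hd.hasDerivAt.sub (hasDerivAt_id 0)).deriv).symm
    rw [e]
    refine norm_deriv_le_of_lip' (by norm_num) ?_
    filter_upwards [isOpen_ball.mem_nhds h0] with g hg
    have a1 := hlip _ (hH' g hg).1 _ (hH' 0 h0).1
    have a2 := hinj _ (hH' g hg).1 _ (hH' 0 h0).1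
    rw [(hH' g hg).2, (hH' 0 h0).2] at a1 a2
    rw [← norm_neg] at a1
    have e2 : -(g - H g - (0 - H 0)) = H g - g - (H 0 - 0) := by ring
    rw [e2] at a1
    linarith [norm_nonneg (g - 0)]
  · have := hG' _ (hsub (hH' 0 h0).1)
    rwa [(hH' 0 h0).2, zero_sub, norm_neg] at this
  · have mem : ∀ x ∈ closedBall (0 : ℝ) (3 / 4 * ρ), (x : ℂ) ∈ ball (0 : ℂ) ρ := fun x hx =>
      hsub2 (by simpa using hx)
    obtain ⟨x, hx, hfx⟩ := P218IN.exists_fixed_closedBall (B := ℝ)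
      (T := fun x : ℝ => ((g : ℂ) - (G x - x)).re) (r := 3 / 4 * ρ) (q := 1 / 8) (by positivity)
      (by norm_num) (by norm_num)
      (fun x hx => by
        rw [mem_closedBall_zero_iff]
        refine (Complex.abs_re_le_norm _).trans ?_
        have := mem_ball_zero_iff.1 hg
        linarith [norm_sub_le (g : ℂ) (G x - x), hG' x (hsub (mem x hx))])
      (fun x hx y hy => by
        rw [← Complex.sub_re]
        refine (Complex.abs_re_le_norm _).trans ?_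
        have := hlip _ (mem x hx) _ (mem y hy)
        rw [← norm_neg, ← Complex.ofReal_sub, Complex.norm_real] at this
        exact le_of_eq_of_le (congrArg _ (by ring)) this)
    have e : G x = g := by
      apply Complex.ext
      · simp only [Complex.sub_re, Complex.ofReal_re] at hfx ⊢
        linarith
      · rw [hre x (mem x hx), Complex.ofReal_im]
    have := huniq x (mem x hx) (by rwa [e])
    rw [e] at this
    rw [this, Complex.ofReal_im]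

variable {V O : Type*} [NormedAddCommGroup V] [NormedSpace ℂ V] [NormedAddCommGroup O]
  [NormedSpace ℂ O] [CompleteSpace O]

omit [CompleteSpace O] in
/-- the coefficients of an approximating quadratic polynomial from three values -/
lemma coeffs_le {f : ℂ → O} {Y0 Y1 Y2 : O} {ρ ε : ℝ} (hρ : 0 < ρ)
    (h0 : ‖f 0 - (Y0 + (0 : ℂ) • Y1 + (0 : ℂ) ^ 2 • Y2)‖ ≤ ε)
    (h1 : ‖f ρ - (Y0 + (ρ : ℂ) • Y1 + (ρ : ℂ) ^ 2 • Y2)‖ ≤ ε)
    (h2 : ‖f (-ρ : ℝ) - (Y0 + ((-ρ : ℝ) : ℂ) • Y1 + ((-ρ : ℝ) : ℂ) ^ 2 • Y2)‖ ≤ ε) :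
    ‖(((2 * ρ)⁻¹ : ℝ) : ℂ) • (f ρ - f (-ρ : ℝ)) - Y1‖ ≤ ε / ρ ∧
      ‖(((2 * ρ ^ 2)⁻¹ : ℝ) : ℂ) • (f ρ + f (-ρ : ℝ) - (f 0 + f 0)) - Y2‖ ≤ 2 * ε / ρ ^ 2 := by
  have hρ' : (ρ : ℂ) ≠ 0 := by exact_mod_cast hρ.ne'
  set a := f 0 - (Y0 + (0 : ℂ) • Y1 + (0 : ℂ) ^ 2 • Y2) with ha
  set b := f ρ - (Y0 + (ρ : ℂ) • Y1 + (ρ : ℂ) ^ 2 • Y2) with hb
  set c := f (-ρ : ℝ) - (Y0 + ((-ρ : ℝ) : ℂ) • Y1 + ((-ρ : ℝ) : ℂ) ^ 2 • Y2) with hc
  constructor
  · have e : (((2 * ρ)⁻¹ : ℝ) : ℂ) • (f ρ - f (-ρ : ℝ)) - Y1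
        = (((2 * ρ)⁻¹ : ℝ) : ℂ) • (b - c) := by
      have e1 : b - c = (f ρ - f (-ρ : ℝ)) - (2 * ρ : ℂ) • Y1 := by
        rw [hb, hc]; push_cast; module
      rw [e1, smul_sub (((2 * ρ)⁻¹ : ℝ) : ℂ) _ ((2 * ρ : ℂ) • Y1), smul_smul]
      push_cast
      rw [inv_mul_cancel₀ (mul_ne_zero two_ne_zero hρ'), one_smul]
    rw [e, norm_smul, Complex.norm_real, Real.norm_of_nonneg (by positivity)]
    calc (2 * ρ)⁻¹ * ‖b - c‖ ≤ (2 * ρ)⁻¹ * (ε + ε) := by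
          gcongr; exact (norm_sub_le _ _).trans (add_le_add h1 h2)
      _ = ε / ρ := by field_simp; ring
  · have e : (((2 * ρ ^ 2)⁻¹ : ℝ) : ℂ) • (f ρ + f (-ρ : ℝ) - (f 0 + f 0)) - Y2
        = (((2 * ρ ^ 2)⁻¹ : ℝ) : ℂ) • (b + c - (a + a)) := by
      have e1 : b + c - (a + a) = (f ρ + f (-ρ : ℝ) - (f 0 + f 0)) - (2 * ρ ^ 2 : ℂ) • Y2 := by
        rw [ha, hb, hc]; push_cast; module
      rw [e1, smul_sub (((2 * ρ ^ 2)⁻¹ : ℝ) : ℂ) _ ((2 * ρ ^ 2 : ℂ) • Y2), smul_smul]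
      push_cast
      rw [inv_mul_cancel₀ (mul_ne_zero two_ne_zero (pow_ne_zero 2 hρ')), one_smul]
    rw [e, norm_smul, Complex.norm_real, Real.norm_of_nonneg (by positivity)]
    calc (2 * ρ ^ 2)⁻¹ * ‖b + c - (a + a)‖ ≤ (2 * ρ ^ 2)⁻¹ * (ε + ε + (ε + ε)) := by
          gcongr
          exact (norm_sub_le _ _).trans (add_le_add ((norm_add_le _ _).trans (add_le_add h1 h2))
            ((norm_add_le _ _).trans (add_le_add h0 h0)))
      _ = 2 * ε / ρ ^ 2 := by field_simp; ring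

/-- DYAD. `F W α v` is holomorphic in `α` on the disc of radius `a / W` and in `v` on `U`; the
level `W'` is close to the level `W` after a small change of the parameter `G W α`. -/
theorem dyad {φ : ℝ → ℝ} {W0 q θ a C1 C2 M : ℝ} (hφ : Rate φ W0 q θ) (ha : 0 < a) (h1 : 0 ≤ C1)
    (h2 : 0 ≤ C2) (hM0 : 0 ≤ M) (hsm : 256 * C1 * θ ≤ a * W0)
    {G : ℝ → ℂ → ℂ} {F : ℝ → ℂ → V → O} {U : Set V} (hU : IsOpen U)
    (hG : ∀ W, W0 ≤ W → DifferentiableOn ℂ (G W) (ball 0 (2 * (a / W))))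
    (hG' : ∀ W, W0 ≤ W → ∀ α ∈ ball (0 : ℂ) (2 * (a / W)), ‖G W α - α‖ ≤ a / W / 8)
    (hF : ∀ W, W0 ≤ W → ∀ v ∈ U, DifferentiableOn ℂ (fun α => F W α v) (ball 0 (a / W)))
    (hFv : ∀ W, W0 ≤ W → ∀ α ∈ ball (0 : ℂ) (a / W), DifferentiableOn ℂ (F W α) U)
    (hM : ∀ W, W0 ≤ W → W ≤ 2 * W0 → ∀ α ∈ ball (0 : ℂ) (a / W), ∀ v ∈ U, ‖F W α v‖ ≤ M)
    (hstep : ∀ W W', W0 ≤ W → 2 * W ≤ W' → W' ≤ 4 * W → ∀ α' ∈ ball (0 : ℂ) (a / W'), ∀ v ∈ U,
      ∃ α ∈ ball (0 : ℂ) (a / W), ‖G W α - G W' α'‖ ≤ C1 * φ W ∧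
        ‖F W' α' v - F W α v‖ ≤ C2 * φ W) :
    ∃ Y0 Y1 Y2 : V → O, DifferentiableOn ℂ Y0 U ∧ DifferentiableOn ℂ Y1 U ∧
      DifferentiableOn ℂ Y2 U ∧
      (∃ B : ℝ, ∀ v ∈ U, ‖Y0 v‖ ≤ B ∧ ‖Y1 v‖ ≤ B ∧ ‖Y2 v‖ ≤ B) ∧
      (∀ W, W0 ≤ W → ∀ α ∈ ball (0 : ℂ) (a / W / 4), ∀ v ∈ U,
        ‖F W α v - (Y0 v + G W α • Y1 v + G W α ^ 2 • Y2 v)‖
          ≤ cE (a / 2) W0 q θ C1 C2 M (φ W0) * φ W) ∧
      (∀ W, W0 ≤ W → ∃ α₀ h : ℂ, ‖α₀‖ ≤ a / W / 8 ∧ G W α₀ = 0 ∧ ‖h - 1‖ ≤ 1 / 4 ∧ ∀ v ∈ U,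
        ‖F W α₀ v - Y0 v‖ ≤ cD (a / 2) W0 θ C1 C2 M * φ W / (1 - 4 * q) ∧
        ‖h • deriv (fun α => F W α v) α₀ - Y1 v‖
          ≤ cD (a / 2) W0 θ C1 C2 M * φ W * (16 * W / a) / (1 - 4 * q)) ∧
      ((∀ W, W0 ≤ W → ∀ x : ℝ, (x : ℂ) ∈ ball (0 : ℂ) (a / W) → (G W x).im = 0) →
        ∀ R : Submodule ℝ O, IsClosed (R : Set O) → ∀ v ∈ U,
          (∀ W, W0 ≤ W → ∀ x : ℝ, (x : ℂ) ∈ ball (0 : ℂ) (a / W) → F W x v ∈ R) →
          Y0 v ∈ R ∧ Y1 v ∈ R ∧ Y2 v ∈ R) := by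
  have h0 := hφ.W0_pos
  have hq1 := hφ.q_gt
  have hq2 := hφ.q_lt
  have hθ : 0 ≤ θ := by
    have a := (hφ.pos W0 le_rfl).trans_le (hφ.le W0 le_rfl)
    exact (div_pos_iff_of_pos_right (by positivity)).1 a |>.le
  have hex : ∀ W, ∃ H : ℂ → ℂ, W0 ≤ W → DifferentiableOn ℂ H (ball 0 (a / W / 2)) ∧
      (∀ g ∈ ball (0 : ℂ) (a / W / 2), H g ∈ ball (0 : ℂ) (a / W) ∧ G W (H g) = g) ∧
      (∀ α ∈ ball (0 : ℂ) (a / W), G W α ∈ ball (0 : ℂ) (a / W / 2) → H (G W α) = α) ∧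
      ‖deriv H 0 - 1‖ ≤ 1 / 4 ∧ ‖H 0‖ ≤ a / W / 8 ∧
      ((∀ x : ℝ, (x : ℂ) ∈ ball (0 : ℂ) (a / W) → (G W x).im = 0) →
        ∀ g : ℝ, (g : ℂ) ∈ ball (0 : ℂ) (a / W / 2) → (H g).im = 0) := by
    intro W
    by_cases hW : W0 ≤ W
    · have : 0 < W := h0.trans_le hW
      obtain ⟨H, hH⟩ := exists_inv (by positivity) (hG W hW) (hG' W hW)
      exact ⟨H, fun _ => hH⟩
    · exact ⟨id, fun h => absurd h hW⟩
  choose H hH using hex
  have ec : ∀ W, a / 2 / W = a / W / 2 := fun W => by ring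
  have key : ∀ v, ∃ Y : O × O × O, v ∈ U → ∀ W, W0 ≤ W →
      ‖F W (H W 0) v - Y.1‖ ≤ cD (a / 2) W0 θ C1 C2 M * φ W / (1 - 4 * q) ∧
      ‖deriv (fun g => F W (H W g) v) 0 - Y.2.1‖
        ≤ cD (a / 2) W0 θ C1 C2 M * φ W * (8 * W / (a / 2)) / (1 - 4 * q) ∧
      ‖ds (ds fun g => F W (H W g) v) 0 - Y.2.2‖
        ≤ cD (a / 2) W0 θ C1 C2 M * φ W * (8 * W / (a / 2)) ^ 2 / (1 - 4 * q) ∧
      ∀ g ∈ ball (0 : ℂ) (a / 2 / W), ‖F W (H W g) v - (Y.1 + g • Y.2.1 + g ^ 2 • Y.2.2)‖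
        ≤ cE (a / 2) W0 q θ C1 C2 M (φ W0) * φ W := by
    intro v
    by_cases hv : v ∈ U
    swap
    · exact ⟨0, fun h => absurd h hv⟩
    obtain ⟨Y0, Y1, Y2, hY⟩ := dyad0 (F := fun W g => F W (H W g) v) (c := a / 2) hφ
      (by positivity) h1 h2 hM0 (by linarith)
      (fun W hW => by
        rw [ec]
        exact (hF W hW v hv).comp (hH W hW).1 fun g hg => ((hH W hW).2.1 g hg).1)
      (fun W hW hW' g hg => hM W hW hW' _ ((hH W hW).2.1 g (by rwa [← ec])).1 v hv)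
      (fun W W' hW b b' g' hg' => by
        have hW0 : 0 < W := h0.trans_le hW
        have hW' : W0 ≤ W' := by linarith
        rw [ec] at hg'
        obtain ⟨m1, m2⟩ := (hH W' hW').2.1 g' hg'
        obtain ⟨α, hα, e1, e2⟩ := hstep W W' hW b b' _ m1 v hv
        rw [m2] at e1
        refine ⟨G W α, e1, ?_⟩
        rw [(hH W hW).2.2.1 α hα]
        · exact e2
        rw [mem_ball_zero_iff] at hg' ⊢
        have f1 : a / W' / 2 ≤ a / W / 4 := by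
          rw [div_div, div_div]
          exact div_le_div_of_nonneg_left ha.le (by positivity) (by linarith)
        have f2 : C1 * φ W ≤ a / W / 4 := by
          have e3 : C1 * φ W ≤ C1 * (θ / W ^ 2) := by gcongr; exact hφ.le W hW
          refine e3.trans ?_
          rw [← mul_div_assoc, div_div, div_le_div_iff₀ (by positivity) (by positivity)]
          have : a * W0 ≤ a * W := by gcongr
          nlinarith [mul_nonneg h1 hθ]
        have f3 : ‖G W α‖ ≤ ‖G W α - g'‖ + ‖g'‖ := by simpa using norm_add_le (G W α - g') g'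
        linarith)
    exact ⟨(Y0, Y1, Y2), fun _ => hY⟩
  choose Y hY using key
  set D := cD (a / 2) W0 θ C1 C2 M with hD
  set E := cE (a / 2) W0 q θ C1 C2 M (φ W0) with hE
  have hD0 : 0 ≤ D := by rw [hD]; unfold cD; positivity
  have h4 : 0 < 1 - 4 * q := by linarith
  have p0 := hφ.pos W0 le_rfl
  have hE0 : 0 ≤ E := by
    rw [hE]; unfold cE; rw [← hD]
    have : 0 < 8 * q - 1 := by linarith
    have : 0 < q := by linarith
    positivity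
  -- bounds
  obtain ⟨B, hB⟩ : ∃ B : ℝ, ∀ v ∈ U, ‖(Y v).1‖ ≤ B ∧ ‖(Y v).2.1‖ ≤ B ∧ ‖(Y v).2.2‖ ≤ B := by
    have hp : 0 < a / W0 / 2 := by positivity
    refine ⟨(M + D * φ W0 / (1 - 4 * q)) + (2 * M / (a / W0 / 2)
      + D * φ W0 * (8 * W0 / (a / 2)) / (1 - 4 * q)) + (2 * (2 * M / (a / W0 / 2)) / (a / W0 / 2)
      + D * φ W0 * (8 * W0 / (a / 2)) ^ 2 / (1 - 4 * q)), fun v hv => ?_⟩
    obtain ⟨y0, y1, y2, -⟩ := hY v hv W0 le_rfl
    have z0 : (0 : ℂ) ∈ ball (0 : ℂ) (a / W0 / 2) := mem_ball_self hp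
    have d : DifferentiableOn ℂ (fun g => F W0 (H W0 g) v) (ball 0 (a / W0 / 2)) :=
      (hF W0 le_rfl v hv).comp (hH W0 le_rfl).1 fun g hg => ((hH W0 le_rfl).2.1 g hg).1
    have m0 : ∀ g ∈ ball (0 : ℂ) (a / W0 / 2), ‖F W0 (H W0 g) v‖ ≤ M := fun g hg =>
      hM W0 le_rfl (by linarith) _ ((hH W0 le_rfl).2.1 g hg).1 v hv
    have m1 := ds_le d m0
    have m2 := ds_le (ds_diff hp d) m1 0 z0
    have m1' := m1 0 z0
    have e : ds (fun g => F W0 (H W0 g) v) 0 = deriv (fun g => F W0 (H W0 g) v) 0 := by simp [ds]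
    rw [e] at m1'
    have tri : ∀ x y : O, ‖y‖ ≤ ‖x‖ + ‖x - y‖ := fun x y => by
      simpa using norm_sub_le x (x - y)
    have t0 := (tri _ _).trans (add_le_add (m0 0 z0) y0)
    have t1 := (tri _ _).trans (add_le_add m1' y1)
    have t2 := (tri _ _).trans (add_le_add m2 y2)
    have n0 := norm_nonneg (Y v).1
    have n1 := norm_nonneg (Y v).2.1
    have n2 := norm_nonneg (Y v).2.2
    refine ⟨by linarith, by linarith, by linarith⟩
  -- approximation by three values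
  set ρ : ℝ → ℝ := fun W => a / W / 4 with hρ
  set P0 : ℝ → V → O := fun W v => F W (H W 0) v
  set P1 : ℝ → V → O := fun W v =>
    (((2 * ρ W)⁻¹ : ℝ) : ℂ) • (F W (H W (ρ W)) v - F W (H W (-ρ W : ℝ)) v)
  set P2 : ℝ → V → O := fun W v => (((2 * ρ W ^ 2)⁻¹ : ℝ) : ℂ) •
    (F W (H W (ρ W)) v + F W (H W (-ρ W : ℝ)) v - (F W (H W 0) v + F W (H W 0) v))
  have nodes : ∀ W, W0 ≤ W → (0 : ℂ) ∈ ball (0 : ℂ) (a / W / 2) ∧
      ((ρ W : ℝ) : ℂ) ∈ ball (0 : ℂ) (a / W / 2) ∧ ((-ρ W : ℝ) : ℂ) ∈ ball (0 : ℂ) (a / W / 2) := by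
    intro W hW
    have hW0 : 0 < W := h0.trans_le hW
    have : 0 < a / W := by positivity
    refine ⟨mem_ball_self (by positivity), ?_, ?_⟩ <;>
      rw [mem_ball_zero_iff, Complex.norm_real, Real.norm_eq_abs, abs_lt] <;>
      constructor <;> simp only [hρ] <;> linarith
  set ε : ℝ → ℝ := fun W => D * φ W / (1 - 4 * q) + E * φ W / ρ W + 2 * (E * φ W) / ρ W ^ 2
  have hP : ∀ W, W0 ≤ W → ∀ v ∈ U, ‖P0 W v - (Y v).1‖ ≤ ε W ∧ ‖P1 W v - (Y v).2.1‖ ≤ ε W ∧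
      ‖P2 W v - (Y v).2.2‖ ≤ ε W := by
    intro W hW v hv
    have hW0 : 0 < W := h0.trans_le hW
    have hρ0 : 0 < ρ W := by simp only [hρ]; positivity
    obtain ⟨y0, -, -, y3⟩ := hY v hv W hW
    obtain ⟨n0, n1, n2⟩ := nodes W hW
    rw [← ec] at n0 n1 n2
    obtain ⟨c1, c2⟩ := coeffs_le (f := fun g => F W (H W g) v) hρ0 (y3 _ n0) (y3 _ n1) (y3 _ n2)
    have := hφ.pos W hW
    have q0 : 0 ≤ D * φ W / (1 - 4 * q) := by positivity
    have q1 : 0 ≤ E * φ W / ρ W := by positivity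
    have q2 : 0 ≤ 2 * (E * φ W) / ρ W ^ 2 := by positivity
    exact ⟨y0.trans (by simp only [ε]; linarith), c1.trans (by simp only [ε]; linarith),
      c2.trans (by simp only [ε]; linarith)⟩
  set s : ℕ → ℝ := fun k => 2 ^ k * W0 with hs
  have hge : ∀ k : ℕ, W0 ≤ s k := fun k => le_mul_of_one_le_left h0.le (one_le_pow₀ one_le_two)
  have hφk : ∀ k : ℕ, φ (s k) = q ^ k * φ W0 := by
    intro k
    induction k with
    | zero => simp [hs]
    | succ k ih =>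
      rw [show s (k + 1) = 2 * s k by simp only [hs]; ring, hφ.two _ (hge k), ih]; ring
  have hε : Tendsto (fun k => ε (s k)) atTop (𝓝 0) := by
    have t : ∀ r : ℝ, 0 ≤ r → r < 1 → ∀ c : ℝ, Tendsto (fun k : ℕ => c * r ^ k) atTop (𝓝 0) :=
      fun r r0 r1 c => by simpa using (tendsto_pow_atTop_nhds_zero_of_lt_one r0 r1).const_mul c
    have t3 := ((t q (by linarith) (by linarith) (D * φ W0 / (1 - 4 * q))).add
      (t (2 * q) (by linarith) (by linarith) (E * φ W0 * (4 * W0 / a)))).add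
      (t (4 * q) (by linarith) (by linarith) (2 * E * φ W0 * (4 * W0 / a) ^ 2))
    rw [add_zero, add_zero] at t3
    refine t3.congr fun k => ?_
    simp only [ε, hρ]
    rw [hφk]
    simp only [hs]
    rw [show (4 : ℝ) * q = 2 ^ 2 * q by norm_num, mul_pow, mul_pow, ← pow_mul, mul_comm 2 k,
      pow_mul]
    field_simp
  have hlim : ∀ {P : ℝ → V → O} {y : V → O}, (∀ W, W0 ≤ W → ∀ v ∈ U, ‖P W v - y v‖ ≤ ε W) →
      ∀ v ∈ U, Tendsto (fun k => P (s k) v) atTop (𝓝 (y v)) := by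
    intro P y h v hv
    rw [tendsto_iff_norm_sub_tendsto_zero]
    exact squeeze_zero (fun _ => norm_nonneg _) (fun k => h _ (hge k) v hv) hε
  have hdiff : ∀ {P : ℝ → V → O} {y : V → O}, (∀ W, W0 ≤ W → ∀ v ∈ U, ‖P W v - y v‖ ≤ ε W) →
      (∀ v ∈ U, ‖y v‖ ≤ B) → (∀ W, W0 ≤ W → DifferentiableOn ℂ (P W) U) →
      DifferentiableOn ℂ y U := by
    intro P y h hb hd
    refine (P218CO.differentiableOn_of_tendsto (l := atTop) (f := fun k => P (s k)) hU (M := B + 1)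
      ?_ (hlim h)).1
    filter_upwards [hε.eventually_le_const one_pos] with k hk
    refine ⟨hd _ (hge k), fun v hv => ?_⟩
    have t : ‖P (s k) v‖ ≤ ‖P (s k) v - y v‖ + ‖y v‖ := by
      simpa using norm_add_le (P (s k) v - y v) (y v)
    linarith [h _ (hge k) v hv, hb v hv]
  have dn : ∀ W, W0 ≤ W → DifferentiableOn ℂ (F W (H W 0)) U ∧
      DifferentiableOn ℂ (F W (H W (ρ W))) U ∧ DifferentiableOn ℂ (F W (H W (-ρ W : ℝ))) U :=
    fun W hW => ⟨hFv W hW _ ((hH W hW).2.1 _ (nodes W hW).1).1,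
      hFv W hW _ ((hH W hW).2.1 _ (nodes W hW).2.1).1,
      hFv W hW _ ((hH W hW).2.1 _ (nodes W hW).2.2).1⟩
  refine ⟨fun v => (Y v).1, fun v => (Y v).2.1, fun v => (Y v).2.2,
    hdiff (P := P0) (fun W hW v hv => (hP W hW v hv).1) (fun v hv => (hB v hv).1)
      fun W hW => (dn W hW).1,
    hdiff (P := P1) (fun W hW v hv => (hP W hW v hv).2.1) (fun v hv => (hB v hv).2.1)
      fun W hW => ((dn W hW).2.1.sub (dn W hW).2.2).const_smul _,
    hdiff (P := P2) (fun W hW v hv => (hP W hW v hv).2.2) (fun v hv => (hB v hv).2.2)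
      fun W hW => (((dn W hW).2.1.add (dn W hW).2.2).sub ((dn W hW).1.add (dn W hW).1)).const_smul _,
    ⟨B, hB⟩, fun W hW α hα v hv => ?_, fun W hW => ?_, fun hre R hR v hv hFR => ?_⟩
  · have hW0 : 0 < W := h0.trans_le hW
    have hp : 0 < a / W := by positivity
    have m1 : α ∈ ball (0 : ℂ) (a / W) := ball_subset_ball (by linarith) hα
    have m2 : G W α ∈ ball (0 : ℂ) (a / W / 2) := by
      have e1 := hG' W hW α (ball_subset_ball (by linarith) hα)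
      have e2 : ‖G W α‖ ≤ ‖G W α - α‖ + ‖α‖ := by simpa using norm_add_le (G W α - α) α
      rw [mem_ball_zero_iff] at hα ⊢
      linarith
    have := (hY v hv W hW).2.2.2 (G W α) (by rwa [ec])
    rwa [(hH W hW).2.2.1 α m1 m2] at this
  · obtain ⟨d, m, -, e1, e2, -⟩ := hH W hW
    have n0 := (nodes W hW).1
    refine ⟨H W 0, deriv (H W) 0, e2, (m 0 n0).2, e1, fun v hv => ⟨(hY v hv W hW).1, ?_⟩⟩
    have y1 := (hY v hv W hW).2.1
    have d1 := (d.differentiableAt (isOpen_ball.mem_nhds n0)).hasDerivAt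
    have d2 := ((hF W hW v hv).differentiableAt (isOpen_ball.mem_nhds (m 0 n0).1)).hasDerivAt
    have d3 : deriv (fun g => F W (H W g) v) 0 = _ := (d2.scomp 0 d1).deriv
    rw [d3] at y1
    refine y1.trans_eq ?_
    congr 2
    field_simp
    ring
  · have mem : ∀ W, W0 ≤ W → ∀ g : ℝ, (g : ℂ) ∈ ball (0 : ℂ) (a / W / 2) → F W (H W g) v ∈ R := by
      intro W hW g hg
      have e1 := (hH W hW).2.2.2.2.2 (hre W hW) g hg
      have e2 : H W g = ((H W g).re : ℂ) := Complex.ext (by simp) (by simp [e1])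
      have := hFR W hW (H W g).re (by rw [← e2]; exact ((hH W hW).2.1 g hg).1)
      rwa [← e2] at this
    have m0 : ∀ k, F (s k) (H (s k) 0) v ∈ R := fun k => by
      simpa using mem _ (hge k) 0 (by simpa using (nodes _ (hge k)).1)
    have m1 := fun k => mem _ (hge k) _ (nodes _ (hge k)).2.1
    have m2 := fun k => mem _ (hge k) _ (nodes _ (hge k)).2.2
    refine ⟨hR.mem_of_tendsto (hlim (P := P0) (fun W hW v hv => (hP W hW v hv).1) v hv)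
        (Eventually.of_forall m0),
      hR.mem_of_tendsto (hlim (P := P1) (fun W hW v hv => (hP W hW v hv).2.1) v hv)
        (Eventually.of_forall fun k => ?_),
      hR.mem_of_tendsto (hlim (P := P2) (fun W hW v hv => (hP W hW v hv).2.2) v hv)
        (Eventually.of_forall fun k => ?_)⟩
    · simp only [P1, Complex.coe_smul]
      exact R.smul_mem _ (R.sub_mem (m1 k) (m2 k))
    · simp only [P2, Complex.coe_smul]
      exact R.smul_mem _ (R.sub_mem (R.add_mem (m1 k) (m2 k)) (R.add_mem (m0 k) (m0 k)))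

/-- the power rate -/
lemma rate_rpow {W0 k : ℝ} (h0 : 1 ≤ W0) (hk0 : 0 < k) (hk : k < 1) :
    Rate (fun W => W ^ (-(2 + k))) W0 (2 ^ (-(2 + k))) (W0 ^ (-k)) where
  W0_pos := by linarith
  q_gt := by
    rw [show (1 : ℝ) / 8 = 2 ^ (-3 : ℝ) by rw [Real.rpow_neg (by norm_num)]; norm_num]
    exact Real.rpow_lt_rpow_of_exponent_lt one_lt_two (by linarith)
  q_lt := by
    rw [show (1 : ℝ) / 4 = 2 ^ (-2 : ℝ) by rw [Real.rpow_neg (by norm_num)]; norm_num]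
    exact Real.rpow_lt_rpow_of_exponent_lt one_lt_two (by linarith)
  pos W hW := Real.rpow_pos_of_pos (by linarith) _
  two W hW := Real.mul_rpow (by norm_num) (by linarith)
  anti W W' a b := Real.rpow_le_rpow_of_nonpos (by linarith) b (by linarith)
  le W hW := by
    have hW0 : 0 < W := by linarith
    rw [show -(2 + k) = -k - 2 by ring, Real.rpow_sub hW0, Real.rpow_two]
    gcongr ?_ / _
    exact Real.rpow_le_rpow_of_nonpos (by linarith) hW (by linarith)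

end Vale.Agent.P218CH
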