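import Vale.Agent.P218CH.EndX
import Vale.Agent.P218CH.Dyad
import Vale.Agent.P218TP.G1
import Vale.Agent.P218TP.RJ3

/-! The canonical expansion from the comparison of two levels. -/

namespace Vale.Agent.P218CH
open Set Complex Metric Filter Topology Vale.Agent.P218EN Vale.Agent.P218EN.WA
open Vale.Agent.P218TP (GG GG_sub_g0 differentiableOn_GG transport_std rpin rpin_of_zero cT
  one_le_cT)

variable {V O : Type*} [NormedAddCommGroup V] [NormedSpace ℂ V] [NormedAddCommGroup O]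
  [NormedSpace ℂ O] {K W c : ℝ} {α : ℂ}

/-- the rate -/
noncomputable def ph (W : ℝ) : ℝ := W ^ (-(2 + 1 / 8) : ℝ)

lemma ph_pos (h : 0 < W) : 0 < ph W := Real.rpow_pos_of_pos h _

lemma ph_scale {t : ℝ} (hW : 0 < W) (ht : 1 ≤ t) : ph (W / t) ≤ t ^ 3 * ph W := by
  have t0 : 0 < t := by linarith
  rw [ph, ph, Real.div_rpow hW.le t0.le, div_eq_inv_mul, ← Real.rpow_neg t0.le, neg_neg,
    ← Real.rpow_natCast]
  exact mul_le_mul_of_nonneg_right (Real.rpow_le_rpow_of_exponent_le ht (by norm_num))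
    (Real.rpow_pos_of_pos hW _).le

lemma ph_tendsto : Tendsto ph atTop (𝓝 0) := tendsto_rpow_neg_atTop (by norm_num)

lemma Big.norm_GG_le (hb : Big K W) (hK : 4000000 ≤ K) (h : α ∈ D W K) : ‖GG W α‖ ≤ 10 / W := by
  have h1 := hb.norm_g0_le (by linarith) (by linarith) h
  have h2 := GG_sub_g0 hb.pos hK h
  have h3 := norm_le_norm_sub_add (GG W α) (g0 W α)
  have h4 : 100 / W ^ 2 ≤ 2 / W := by
    rw [div_le_div_iff₀ (pow_pos hb.pos 2) hb.pos]; nlinarith [hb.1]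
  have e : 10 / W = 2 / W + 8 / W := by ring
  linarith

lemma Big.norm_GG_le_one (hb : Big K W) (hK : 4000000 ≤ K) (h : α ∈ D W K) : ‖GG W α‖ ≤ 1 :=
  (hb.norm_GG_le hK h).trans ((div_le_one hb.pos).2 (by linarith [hb.1]))

lemma Big.mem_D (hb : Big K W) (hK : 4000000 ≤ K) (h : ‖α‖ * W ≤ 1 / 2) : α ∈ D W K := by
  refine mem_D_of_norm hb.pos ?_
  have : K / W ≤ 1 / 64 := by rw [div_le_iff₀ hb.pos]; linarith [hb.le (by linarith)]
  linarith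

lemma Big.GG_sub_le (hb : Big K W) (hK : 4000000 ≤ K) (h : ‖α‖ * W ≤ 1 / 2) :
    ‖GG W α - α‖ ≤ 1 / 4 / W / 8 := by
  have h0 := hb.pos
  have hD := hb.mem_D hK h
  have h1 := hb.g0_sub_le (by linarith) (by linarith) hD
  have h2 := GG_sub_g0 hb.pos hK hD
  have h3 := norm_sub_le_norm_sub_add_norm_sub (GG W α) (g0 W α) α
  have h4 : ‖α‖ ≤ 1 / W := by rw [le_div_iff₀ h0]; linarith
  have h5 := hb.log_nonneg
  have h6 : 8 / 7 * ‖α‖ ^ 2 * (Real.log W + 1) ≤ 8 / 7 * (1 / W) ^ 2 * (W / 1000) := by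
    gcongr
    nlinarith [hb.2]
  have h7 : 100 / W ^ 2 ≤ 1 / 100 / W := by
    rw [div_le_div_iff₀ (pow_pos h0 2) h0]; nlinarith [hb.le (by linarith)]
  have e1 : 8 / 7 * (1 / W) ^ 2 * (W / 1000) = 8 / 7000 * W⁻¹ := by field_simp; norm_num
  have e2 : 1 / 100 / W = 1 / 100 * W⁻¹ := by ring
  have e3 : 1 / 4 / W / 8 = 1 / 32 * W⁻¹ := by ring
  have : 0 < W⁻¹ := inv_pos.2 h0
  linarith

lemma quad_lip {Y0 Y1 Y2 : O} {g g' : ℂ} {B : ℝ} (h1 : ‖Y1‖ ≤ B) (h2 : ‖Y2‖ ≤ B) (hg : ‖g‖ ≤ 1)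
    (hg' : ‖g'‖ ≤ 1) :
    ‖Y0 + g • Y1 + g ^ 2 • Y2 - (Y0 + g' • Y1 + g' ^ 2 • Y2)‖ ≤ 3 * B * ‖g - g'‖ := by
  have e : Y0 + g • Y1 + g ^ 2 • Y2 - (Y0 + g' • Y1 + g' ^ 2 • Y2)
      = (g - g') • (Y1 + (g + g') • Y2) := by module
  have h3 := norm_add_le g g'
  have h4 := norm_add_le Y1 ((g + g') • Y2)
  rw [norm_smul] at h4
  have h5 : ‖g + g'‖ * ‖Y2‖ ≤ 2 * B := by gcongr; linarith
  rw [e, norm_smul, mul_comm]
  gcongr
  linarith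

theorem can_abs [CompleteSpace O] {c0 C M : ℝ} (hK : 4000000 ≤ K) (hC : 0 ≤ C) (hM0 : 0 ≤ M)
    {U : Set V} (hU : IsOpen U) {F : ℝ → ℂ × V → O}
    (hF : ∀ W, c0 ≤ W → DifferentiableOn ℂ (F W) (D W K ×ˢ U))
    (hM : ∀ W, c0 ≤ W → ∀ q ∈ D W K ×ˢ U, ‖F W q‖ ≤ M)
    (hstep : ∀ W c, c0 ≤ c → 2 * c ≤ W → W ≤ 32 * c → ∀ α' ∈ D W K, ‖α'‖ * c ≤ 1 / 4 → ∀ v ∈ U,
      ∃ α ∈ D c K, ‖α - α'‖ * c ≤ 1 / 64 ∧ ‖GG c α - GG W α'‖ ≤ C * ph c ∧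
        ‖F W (α', v) - F c (α, v)‖ ≤ C * ph c) :
    ∃ Y : Fin 3 → V → O, (∀ n, DifferentiableOn ℂ (Y n) U) ∧ (∃ B, ∀ n, ∀ v ∈ U, ‖Y n v‖ ≤ B) ∧
      ∃ C' W1, ∀ W, W1 ≤ W → ∀ q ∈ D W K ×ˢ U,
        ‖F W q - (Y 0 q.2 + GG W q.1 • Y 1 q.2 + GG W q.1 ^ 2 • Y 2 q.2)‖ ≤ C' * ph W := by
  obtain ⟨w0, hw0⟩ := exists_big K
  obtain ⟨W0, a1, a2, a3, a4⟩ : ∃ W0, w0 ≤ W0 ∧ c0 ≤ W0 ∧ 1024 * C ≤ W0 ∧ 1 ≤ W0 :=
    ⟨max (max w0 c0) (max (1024 * C) 1), by simp, by simp, by simp, by simp⟩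
  have hb : ∀ W, W0 ≤ W → Big K W := fun W h => hw0 W (a1.trans h)
  have hin : ∀ {W t : ℝ} {α : ℂ}, 0 < W → α ∈ ball (0 : ℂ) (t / W) → ‖α‖ * W < t :=
    fun h0 h => (lt_div_iff₀ h0).1 (mem_ball_zero_iff.1 h)
  have hin2 : ∀ {W : ℝ} {α : ℂ}, 0 < W → α ∈ ball (0 : ℂ) (2 * (1 / 4 / W)) → ‖α‖ * W ≤ 1 / 2 :=
    fun {W α} h0 h => (hin h0 (by rwa [show 2 * (1 / 4 / W) = 1 / 2 / W by ring] at h)).le
  have hD : ∀ {W : ℝ} {α : ℂ}, W0 ≤ W → α ∈ ball (0 : ℂ) (1 / 4 / W) → α ∈ D W K :=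
    fun {W α} h0 h => (hb W h0).mem_D hK (by linarith [hin (hb W h0).pos h])
  have tri : ∀ {c : ℝ} {α α' : ℂ}, 0 < c → ‖α - α'‖ * c ≤ 1 / 64 → ‖α‖ * c ≤ 1 / 64 + ‖α'‖ * c :=
    fun {c α α'} h0 h => by
      have := mul_le_mul_of_nonneg_right (norm_le_norm_sub_add α α') h0.le
      linarith
  obtain ⟨Y0, Y1, Y2, d0, d1, d2, ⟨B, hB⟩, hE, -⟩ := dyad (a := 1 / 4) (C1 := C) (C2 := C) (M := M)
    (G := GG) (F := fun W α v => F W (α, v)) (U := U)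
    (rate_rpow (k := 1 / 8) a4 (by norm_num) (by norm_num)) (by norm_num) hC hC hM0
    (by
      have : W0 ^ (-(1 / 8) : ℝ) ≤ 1 := Real.rpow_le_one_of_one_le_of_nonpos a4 (by norm_num)
      nlinarith) hU
    (fun W hW => (differentiableOn_GG (hb W hW).pos hK).mono fun α h =>
      (hb W hW).mem_D hK (hin2 (hb W hW).pos h))
    (fun W hW α h => (hb W hW).GG_sub_le hK (hin2 (hb W hW).pos h))
    (fun W hW v hv => (hF W (a2.trans hW)).comp (by fun_prop) fun α h => ⟨hD hW h, hv⟩)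
    (fun W hW α h => (hF W (a2.trans hW)).comp (by fun_prop) fun v hv => ⟨hD hW h, hv⟩)
    (fun W hW _ α h v hv => hM W (a2.trans hW) _ ⟨hD hW h, hv⟩)
    (fun W W' hW h2 h4 α' h v hv => by
      have h0 := (hb W hW).pos
      have h5 := hin (by linarith) h
      have h6 : ‖α'‖ * W ≤ 1 / 8 := by nlinarith [norm_nonneg α']
      obtain ⟨α, -, b1, b2, b3⟩ := hstep W' W (a2.trans hW) h2 (by linarith) α'
        (hD (by linarith) h) (by linarith) v hv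
      exact ⟨α, mem_ball_zero_iff.2 ((lt_div_iff₀ h0).2 (by linarith [tri h0 b1])), b2, b3⟩)
  set E := cE (1 / 4 / 2) W0 (2 ^ (-(2 + 1 / 8) : ℝ)) (W0 ^ (-(1 / 8) : ℝ)) C C M
    (W0 ^ (-(2 + 1 / 8) : ℝ))
  refine ⟨![Y0, Y1, Y2], fun n => by fin_cases n <;> assumption,
    ⟨B, fun n v hv => by fin_cases n; exacts [(hB v hv).1, (hB v hv).2.1, (hB v hv).2.2]⟩,
    256 ^ 3 * (2 * C + |E| + 6 * B * C), 256 * W0, fun W hW ⟨α, v⟩ ⟨hα, hv⟩ => ?_⟩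
  have h0 : 0 < W := by linarith
  have h1 := (lt_div_iff₀ h0).1 (norm_lt h0 (by linarith) hα)
  obtain ⟨α1, m1, b1, b2, b3⟩ := hstep W (W / 32) (by linarith) (by linarith) (by linarith) α hα
    (by linarith) v hv
  have h2 := tri (by positivity) b1
  obtain ⟨α2, m2, c1, c2, c3⟩ := hstep (W / 32) (W / 256) (by linarith) (by linarith) (by linarith)
    α1 m1 (by linarith) v hv
  have h3 := tri (by positivity) c1
  have h4 := hE (W / 256) (by linarith) α2 (mem_ball_zero_iff.2 (by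
    rw [show 1 / 4 / (W / 256) / 4 = 1 / 16 / (W / 256) by ring, lt_div_iff₀ (by positivity)]
    linarith)) v hv
  have h5 := quad_lip (Y0 := Y0 v) (hB v hv).2.1 (hB v hv).2.2
    ((hb (W / 256) (by linarith)).norm_GG_le_one hK m2) ((hb W (by linarith)).norm_GG_le_one hK hα)
  have B0 : 0 ≤ B := (norm_nonneg _).trans (hB v hv).1
  have p1 : ph (W / 32) ≤ 256 ^ 3 * ph W :=
    (ph_scale h0 (by norm_num)).trans (by gcongr; exacts [(ph_pos h0).le, by norm_num])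
  have p2 : ph (W / 256) ≤ 256 ^ 3 * ph W := ph_scale h0 (by norm_num)
  have p3 := mul_le_mul_of_nonneg_left p1 hC
  have p4 := mul_le_mul_of_nonneg_left p2 hC
  have p5 : E * ph (W / 256) ≤ |E| * (256 ^ 3 * ph W) :=
    mul_le_mul (le_abs_self E) p2 (ph_pos (by positivity)).le (abs_nonneg E)
  have h6 : 3 * B * ‖GG (W / 256) α2 - GG W α‖ ≤ 3 * B * (2 * (C * (256 ^ 3 * ph W))) := by
    gcongr
    linarith [norm_sub_le_norm_sub_add_norm_sub (GG (W / 256) α2) (GG (W / 32) α1) (GG W α)]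
  show ‖F W (α, v) - (Y0 v + GG W α • Y1 v + GG W α ^ 2 • Y2 v)‖ ≤ _
  set Z := Y0 v + GG W α • Y1 v + GG W α ^ 2 • Y2 v
  set Z' := Y0 v + GG (W / 256) α2 • Y1 v + GG (W / 256) α2 ^ 2 • Y2 v
  have h4' : ‖F (W / 256) (α2, v) - Z'‖ ≤ E * ph (W / 256) := h4
  linarith [norm_sub_le_norm_sub_add_norm_sub (F W (α, v)) (F (W / 32) (α1, v)) Z,
    norm_sub_le_norm_sub_add_norm_sub (F (W / 32) (α1, v)) (F (W / 256) (α2, v)) Z,
    norm_sub_le_norm_sub_add_norm_sub (F (W / 256) (α2, v)) Z' Z]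

/-- the value at the origin -/
theorem zero_abs {c0 C B : ℝ} (hK : 4000000 ≤ K) {Y0 Y1 Y2 S : O} (h1 : ‖Y1‖ ≤ B) (h2 : ‖Y2‖ ≤ B)
    (h : ∀ c, c0 ≤ c → ∃ α ∈ D c K, ‖S - (Y0 + GG c α • Y1 + GG c α ^ 2 • Y2)‖ ≤ C * ph c) :
    Y0 = S := by
  obtain ⟨w0, hw0⟩ := exists_big K
  have t : Tendsto (fun c : ℝ => C * ph c + 3 * B * (10 / c)) atTop (𝓝 (C * 0 + 3 * B * 0)) :=
    (ph_tendsto.const_mul C).add ((tendsto_const_nhds.div_atTop tendsto_id).const_mul _)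
  rw [mul_zero, mul_zero, add_zero] at t
  refine (eq_of_norm_sub_le_zero (ge_of_tendsto t ?_)).symm
  filter_upwards [eventually_ge_atTop c0, eventually_ge_atTop w0] with c a1 a2
  obtain ⟨α, m, hα⟩ := h c a1
  have h3 := quad_lip (Y0 := Y0) (g' := 0) h1 h2 ((hw0 c a2).norm_GG_le_one hK m) (by simp)
  simp only [zero_smul, add_zero, ne_eq, OfNat.ofNat_ne_zero, not_false_eq_true, zero_pow,
    sub_zero] at h3
  have h4 : 3 * B * ‖GG c α‖ ≤ 3 * B * (10 / c) :=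
    mul_le_mul_of_nonneg_left ((hw0 c a2).norm_GG_le hK m) (by linarith [norm_nonneg Y1])
  linarith [norm_sub_le_norm_sub_add_norm_sub S (Y0 + GG c α • Y1 + GG c α ^ 2 • Y2) Y0]

variable {a s r R L : ℝ} {RV : Set V} {Cf : V × (Fin 6 → WA) → WA} {JS : Fin 6 → WA}
  {J : ℝ → ℂ × V → Fin 6 → WA} {v : V}

lemma EndIn.flat (I : EndIn a s r R K RV Cf JS) (hL : a ≤ L) (hW : 14 * L ≤ W) (hα : α ∈ D W K) :
    Flat a L α := by
  have h0 : 0 < W := by linarith [I.a_pos]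
  have h1 := (lt_div_iff₀ h0).1 (norm_lt h0 (by linarith [I.K_big]) hα)
  exact ⟨by linarith [I.big'], hL, by nlinarith [norm_nonneg α]⟩

lemma EndFam.pin (F : EndFam a s r R K RV Cf JS J) (hW : a ^ 2 ≤ W) (hα : α ∈ D W K)
    (hv : v ∈ ball (0 : V) r) : (J W (α, v) 0).co 0 W = 0 := by
  have := (F.sol W hW (α, v) ⟨hα, hv⟩).dir 0
  rw [pt_zero, co_xi, if_neg (by norm_num [kp])] at this
  simpa using this

lemma EndFam.bd_one (I : EndIn a s r R K RV Cf JS) (F : EndFam a s r R K RV Cf JS J)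
    (hW : a ^ 2 ≤ W) (hα : α ∈ D W K) (hv : v ∈ ball (0 : V) r) (i : Fin 6) :
    Bd (Icc a W) (sg a α) (om a α) (J W (α, v) i) 1 :=
  (F.bd W hW (α, v) ⟨hα, hv⟩ i).mono (by linarith [I.R_le])

theorem EndFam.transport (I : EndIn a s r R K RV Cf JS) (F : EndFam a s r R K RV Cf JS J)
    (hc : a ^ 2 ≤ c) (h2 : 2 * c ≤ W) (h32 : W ≤ 32 * c) (hα : α ∈ D W K)
    (hv : v ∈ ball (0 : V) r) :
    ‖GG c (rpin α (J W (α, v)) c) - GG W α‖ ≤ cT * (70000 * a) * ph c := by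
  have c0 := I.W_pos hc
  have c1 : 1 ≤ c := by linarith [I.W_ge hc, I.big']
  have hW : a ^ 2 ≤ W := by linarith
  have h := transport_std (I.rg hW hα) hα I.K_big (I.W_ge hc) h2 h32 (F.sol W hW (α, v) ⟨hα, hv⟩)
    (fun k w hw => I.src_supp k ((I.s_le hc).trans hw.1))
    fun i => (F.bd_one I hW hα hv i).subset (Icc_subset_Icc_left (I.W_ge hc))
  rw [rpin_of_zero (w := W) (by linarith) (F.pin hW hα hv)] at h
  refine h.trans ?_
  have e : (√c)⁻¹ / c ^ 2 ≤ ph c := by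
    rw [Real.sqrt_eq_rpow, ← Real.rpow_neg c0.le, ← Real.rpow_natCast, ← Real.rpow_sub c0]
    exact Real.rpow_le_rpow_of_exponent_le c1 (by norm_num)
  have := one_le_cT
  have := I.a_pos
  calc _ = cT * (70000 * a) * ((√W)⁻¹ / W ^ 2) := by simp; ring
    _ ≤ cT * (70000 * a) * ((√c)⁻¹ / c ^ 2) := by gcongr <;> linarith
    _ ≤ _ := by gcongr

lemma EndFam.norm_ab_le (I : EndIn a s r R K RV Cf JS) (F : EndFam a s r R K RV Cf JS J)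
    (hL : a ≤ L) (hW : a ^ 2 ≤ W) (hW' : 14 * L ≤ W) (hα : α ∈ D W K) (hv : v ∈ ball (0 : V) r) :
    ‖ab a L α (J W (α, v))‖ ≤ 9 := by
  have hf := I.flat hL hW' hα
  have hr := I.rg hW hα
  have hLW : L ≤ W := by linarith [I.a_pos]
  have h1 : ‖clp a L (J W (α, v))‖ ≤ 1 * 1 := norm_clp_le hL zero_le_one
    (fun i => (F.bd_one I hW hα hv i).subset (Icc_subset_Icc_right hLW)) fun w hw => by
      have := hr.base.sig_le ⟨hw.1, hw.2.trans hLW⟩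
      constructor <;> linarith [this.1, this.2, hr.ep_small]
  have h2 := hf.ab_sub_le (J W (α, v))
  have h3 := norm_le_norm_sub_add (ab a L α (J W (α, v))) (clp a L (J W (α, v)))
  have h4 : 8 * (‖α‖ * L) * (1 + ‖clp a L (J W (α, v))‖) ≤ 8 * (1 / 2) * (1 + 1) := by
    gcongr
    exacts [hf.small, by linarith]
  linarith

lemma EndFam.diff_ab (I : EndIn a s r R K RV Cf JS) (F : EndFam a s r R K RV Cf JS J)
    (hL : a ≤ L) (hW : a ^ 2 ≤ W) (hW' : 14 * L ≤ W) :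
    DifferentiableOn ℂ (fun q : ℂ × V => ab a L q.1 (J W q)) (D W K ×ˢ ball 0 r) :=
  P218CH.diff_ab hL ((isOpen_D (I.W_pos hW)).prod isOpen_ball) differentiableOn_fst
    (fun _ hq => I.flat hL hW' hq.1) (F.holo W hW)

/-- the comparison of two levels -/
def StepAt (a r K L : ℝ) (JS : Fin 6 → WA) (J : ℝ → ℂ × V → Fin 6 → WA) : Prop :=
  ∃ C c0 : ℝ, ∀ c, c0 ≤ c → (∀ W, 2 * c ≤ W → W ≤ 32 * c → ∀ α' ∈ D W K, ‖α'‖ * c ≤ 1 / 4 →
    ∀ v ∈ ball (0 : V) r, rpin α' (J W (α', v)) c ∈ D c K ∧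
      ‖rpin α' (J W (α', v)) c - α'‖ * c ≤ 1 / 64 ∧
      ‖ab a L α' (J W (α', v)) - ab a L (rpin α' (J W (α', v)) c)
        (J c (rpin α' (J W (α', v)) c, v))‖ ≤ C * ph c) ∧
    ∃ α ∈ D c K, ‖clp a L JS - ab a L α (J c (α, 0))‖ ≤ C * ph c

theorem can_hard (I : EndIn a s r R K RV Cf JS) (F : EndFam a s r R K RV Cf JS J) (hL : a ≤ L)
    (h : StepAt a r K L JS J) : ∃ Y : Fin 3 → V → Fin 6 → WA,
      (∀ n, DifferentiableOn ℂ (Y n) (ball 0 r)) ∧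
      (∃ B : ℝ, ∀ n, ∀ v ∈ ball (0 : V) r, ‖Y n v‖ ≤ B) ∧
      (∃ C W1 : ℝ, ∀ W, W1 ≤ W → ∀ q ∈ D W K ×ˢ ball (0 : V) r,
        ‖ab a L q.1 (J W q) - Yt Y (GG W q.1) q.2‖ ≤ C * W ^ (-(2 + 1 / 8) : ℝ)) ∧
      Y 0 0 = clp a L JS := by
  obtain ⟨C, c0, h⟩ := h
  obtain ⟨c1, a1, a2, a3⟩ : ∃ c1, c0 ≤ c1 ∧ a ^ 2 ≤ c1 ∧ 14 * L ≤ c1 :=
    ⟨max c0 (max (a ^ 2) (14 * L)), by simp, by simp, by simp⟩
  have t0 : 0 ≤ cT * (70000 * a) := by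
    have := one_le_cT
    have := I.a_pos
    positivity
  obtain ⟨Y, d, ⟨B, hB⟩, C', W1, hc⟩ := can_abs (c0 := c1) (C := |C| + cT * (70000 * a)) (M := 9)
    (F := fun W q => ab a L q.1 (J W q)) I.K_big (by positivity) (by norm_num) isOpen_ball
    (fun W hW => F.diff_ab I hL (a2.trans hW) (a3.trans hW))
    (fun W hW q hq => F.norm_ab_le I hL (a2.trans hW) (a3.trans hW) hq.1 hq.2)
    (fun W c hc h2 h32 α' hα hs v hv => by
      obtain ⟨b1, b2, b3⟩ := (h c (a1.trans hc)).1 W h2 h32 α' hα hs v hv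
      have p := (ph_pos (I.W_pos (a2.trans hc))).le
      exact ⟨_, b1, b2, (F.transport I (a2.trans hc) h2 h32 hα hv).trans
        (by gcongr; linarith [abs_nonneg C]), b3.trans (by gcongr; linarith [le_abs_self C])⟩)
  have m := mem_ball_self (x := (0 : V)) I.pos
  refine ⟨Y, d, ⟨B, hB⟩, ⟨C', W1, hc⟩, zero_abs (c0 := max c0 W1) (C := C + C') I.K_big (hB 1 0 m)
    (hB 2 0 m) fun c hc' => ?_⟩
  obtain ⟨α, b1, b2⟩ := (h c ((le_max_left _ _).trans hc')).2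
  refine ⟨α, b1, ?_⟩
  have := hc c ((le_max_right _ _).trans hc') (α, 0) ⟨b1, m⟩
  refine (norm_sub_le_norm_sub_add_norm_sub _ (ab a L α (J c (α, 0))) _).trans ?_
  rw [add_mul]
  exact add_le_add b2 this

end Vale.Agent.P218CH
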