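import Vale.Agent.P218CH.Dom

/-! Inversion of the relation between profile parameters and canonical parameters. -/

open Set Filter Metric Topology

set_option linter.unusedSectionVars false

namespace Vale.Agent.P218CH

open Vale.Agent.P218SQ (endDom lev Adm Pt dom)

lemma exists_fixed_closed {B : Type*} [NormedAddCommGroup B] [CompleteSpace B] {T : B → B}
    {X : Set B} (hX : IsClosed X) (hne : X.Nonempty) (hmap : MapsTo T X X)
    (hlip : ∀ x ∈ X, ∀ y ∈ X, ‖T x - T y‖ ≤ 1 / 2 * ‖x - y‖) : ∃ x ∈ X, T x = x := by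
  have hcon : ContractingWith (1 / 2) (hmap.restrict T _ _) := by
    refine ⟨by norm_num, LipschitzWith.of_dist_le_mul fun x y => ?_⟩
    have := hlip x x.2 y y.2
    simpa [Subtype.dist_eq, dist_eq_norm] using this
  obtain ⟨x0, hx0⟩ := hne
  obtain ⟨y, hy, hfix, -⟩ := hcon.exists_fixedPoint' hX.isComplete hmap hx0 (edist_ne_top _ _)
  exact ⟨y, hy, hfix⟩

variable {ι P : Type*} [Fintype ι] [NormedAddCommGroup P] [NormedSpace ℂ P]

/-- product of the admissible discs -/
def DD (W : ι → ℝ) (K : ℝ) : Set (ι → ℂ) := {α | ∀ j, α j ∈ D (W j) K}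

/-- product of the domains of the canonical parameters -/
def AD (W : ι → ℝ) (K : ℝ) : Set (ι → ℂ) := {A | ∀ j, A j ∈ endDom 1 K (W j)}

/-- conditions on the cuts and on the constants -/
structure Cuts (W : ι → ℝ) (K C : ℝ) : Prop where
  K_ge : 200 ≤ K
  C_nonneg : 0 ≤ C
  C_le : 20 * C ≤ K
  big : ∀ j, Big K (W j)
  comp : ∀ i j, W i ≤ 2 * W j

/-- the canonical parameters `a` as functions of the profile parameters -/
structure ChartIn (a : (ι → ℂ) × P → ι → ℂ) (W : ι → ℝ) (K C : ℝ) (Ω : Set P) : Prop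
    extends Cuts W K C where
  isOpen : IsOpen Ω
  holo : DifferentiableOn ℂ a (DD W K ×ˢ Ω)
  close : ∀ α ∈ DD W K, ∀ y ∈ Ω, ∀ j, ‖a (α, y) j - g0 (W j) (α j)‖ ≤ C / W j ^ 2

lemma exists_cuts {K C : ℝ} (h1 : 200 ≤ K) (h2 : 0 ≤ C) (h3 : 20 * C ≤ K) :
    ∃ w0, ∀ W : ι → ℝ, Adm w0 W → Cuts W K C := by
  obtain ⟨w0, h⟩ := exists_big K
  exact ⟨w0, fun W hW => ⟨h1, h2, h3, fun j => h _ (hW j).1, fun i j => (hW i).2 j⟩⟩

variable {a : (ι → ℂ) × P → ι → ℂ} {W : ι → ℝ} {K C : ℝ} {Ω : Set P}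

lemma isOpen_DD (hW : ∀ j, 0 < W j) (K : ℝ) : IsOpen (DD W K) := by
  have : DD W K = ⋂ j, (fun α : ι → ℂ => α j) ⁻¹' D (W j) K := by ext; simp [DD]
  rw [this]
  exact isOpen_iInter_of_finite fun j => (isOpen_D (hW j)).preimage (continuous_apply j)

lemma convex_DD (hW : ∀ j, 0 < W j) (K : ℝ) : Convex ℝ (DD W K) :=
  fun _ hx _ hy _ _ ha hb hab j => convex_D (hW j) (hx j) (hy j) ha hb hab

lemma DD_anti (hW : ∀ j, 0 < W j) {K K' : ℝ} (h : K ≤ K') : DD W K' ⊆ DD W K :=
  fun _ hα j => D_anti (hW j) h (hα j)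

lemma isOpen_endDom (β K w : ℝ) : IsOpen (endDom β K w) := by
  have h1 : IsOpen {a : ℂ | ‖a‖ * lev β K w < 1} := isOpen_lt (by fun_prop) continuous_const
  have h2 : IsOpen {a : ℂ | 2 * a.re < -‖a‖} := isOpen_lt (by fun_prop) (by fun_prop)
  have h3 : IsOpen {a : ℂ | ‖a‖ * w < 5 / 4} := isOpen_lt (by fun_prop) continuous_const
  exact h1.union (h2.inter h3)

lemma isOpen_AD (W : ι → ℝ) (K : ℝ) : IsOpen (AD W K) := by
  have : AD W K = ⋂ j, (fun α : ι → ℂ => α j) ⁻¹' endDom 1 K (W j) := by ext; simp [AD]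
  rw [this]
  exact isOpen_iInter_of_finite fun j => (isOpen_endDom _ _ _).preimage (continuous_apply j)

lemma dom_eq {κ : Type*} [Fintype κ] (K r : ℝ) (W : ι → ℝ) :
    (dom 1 K r W : Set (Pt ι κ)) = AD W K ×ˢ ball 0 r := by
  ext z
  simp [dom, AD]

lemma endDom_norm {w K K' : ℝ} (hb : Big K w) (hK' : 0 ≤ K') {A : ℂ} (h : A ∈ endDom 1 K' w) :
    ‖A‖ ≤ 5 / 4 / w := by
  have hw := hb.pos
  rw [le_div_iff₀ hw]
  rcases h with h | h
  · unfold lev at h
    nlinarith [norm_nonneg A, hb.log_nonneg]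
  · exact h.2.le

/-- the iteration -/
noncomputable def Th (a : (ι → ℂ) × P → ι → ℂ) (W : ι → ℝ) (q : ((ι → ℂ) × P) × (ι → ℂ)) :
    ι → ℂ := fun j =>
  (q.1.1 j - (a (q.2, q.1.2) j - g0 (W j) (q.2 j))) * (1 + q.2 j * lg (W j) (q.2 j))

namespace ChartIn

variable (h : ChartIn a W K C Ω)
include h

lemma pos (j : ι) : 0 < W j := (h.big j).pos

lemma one_le : 1 ≤ K := by linarith [h.K_ge]

lemma sub2 : DD W (2 * K) ⊆ DD W K := DD_anti h.pos (by linarith [h.K_ge])

lemma sub3 : DD W (3 * K) ⊆ DD W (2 * K) := DD_anti h.pos (by linarith [h.K_ge])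

lemma Th_sub {α : ι → ℂ} (hα : α ∈ DD W K) (z : (ι → ℂ) × P) (j : ι) :
    Th a W (z, α) j - α j = (z.1 j - a (α, z.2) j) * (1 + α j * lg (W j) (α j)) := by
  have := (h.big j).den_ne h.one_le h.one_le (hα j)
  unfold Th g0
  field_simp
  ring

lemma Th_fix {α : ι → ℂ} (hα : α ∈ DD W K) (z : (ι → ℂ) × P) :
    Th a W (z, α) = α ↔ a (α, z.2) = z.1 := by
  rw [funext_iff, funext_iff]
  refine forall_congr' fun j => ?_
  rw [← sub_eq_zero, h.Th_sub hα, mul_eq_zero, sub_eq_zero,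
    or_iff_left ((h.big j).den_ne h.one_le h.one_le (hα j)), eq_comm]

lemma C_div_le (j : ι) : C / W j ^ 2 ≤ 1 / 1280 / W j := by
  have h1 := (h.big j).le (by linarith [h.K_ge])
  have h2 := h.pos j
  rw [div_le_div_iff₀ (by positivity) h2]
  nlinarith [h.C_le, h.C_nonneg]

lemma norm_a_le {α : ι → ℂ} (hα : α ∈ DD W K) {y : P} (hy : y ∈ Ω) (j : ι) :
    ‖a (α, y) j‖ ≤ 10 / W j := by
  have h1 := h.close α hα y hy j
  have h2 := (h.big j).norm_g0_le h.one_le h.one_le (hα j)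
  have h3 := h.C_div_le j
  have h4 : ‖a (α, y) j‖ ≤ ‖a (α, y) j - g0 (W j) (α j)‖ + ‖g0 (W j) (α j)‖ := by
    simpa using norm_add_le (a (α, y) j - g0 (W j) (α j)) (g0 (W j) (α j))
  have h5 : 1 / 1280 / W j + 8 / W j ≤ 10 / W j := by
    rw [← add_div]; exact div_le_div_of_nonneg_right (by norm_num) (h.pos j).le
  linarith

lemma Th_lip {z : (ι → ℂ) × P} (hz : ∀ j, ‖z.1 j‖ ≤ 10 / W j) (hy : z.2 ∈ Ω) :
    ∀ α ∈ DD W (2 * K), ∀ α' ∈ DD W (2 * K),
      ‖Th a W (z, α) - Th a W (z, α')‖ ≤ 1 / 2 * ‖α - α'‖ := by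
  intro α hα α' hα'
  refine (pi_norm_le_iff_of_nonneg (by positivity)).2 fun j => ?_
  have hW := h.pos j
  have hK := h.K_ge
  have hb := h.big j
  set r : (ι → ℂ) → ℂ := fun x => (a (x, z.2) j - g0 (W j) (x j)) * (1 + x j * lg (W j) (x j))
    with hr
  have e : (Th a W (z, α) - Th a W (z, α')) j
      = z.1 j * (α j * lg (W j) (α j) - α' j * lg (W j) (α' j)) - (r α - r α') := by
    simp only [Pi.sub_apply, Th, hr]; ring
  have d1 : DifferentiableOn ℂ r (DD W K) := by
    have p : DifferentiableOn ℂ (fun x : ι → ℂ => x j) (DD W K) :=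
      (differentiable_apply j).differentiableOn
    have a1 : DifferentiableOn ℂ (fun x : ι → ℂ => a (x, z.2)) (DD W K) :=
      h.holo.comp (differentiableOn_id.prodMk (differentiableOn_const _)) fun x hx => ⟨hx, hy⟩
    exact ((differentiableOn_pi.1 a1 j).sub ((hb.differentiableOn_g0 h.one_le h.one_le).comp p
      fun x hx => hx j)).mul ((p.mul ((differentiableOn_lg hW (by linarith)).comp p
        fun x hx => hx j)).const_add 1)
  have hC := h.C_nonneg
  have b1 : ∀ x ∈ DD W K, ‖r x‖ ≤ C / W j ^ 2 * (9 / 8) := fun x hx => by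
    rw [hr, norm_mul]
    exact mul_le_mul (h.close x hx _ hy j) (hb.den_le h.one_le h.one_le (hx j)) (norm_nonneg _)
      (by positivity)
  have b2 : ∀ x ∈ DD W (2 * K), ‖fderiv ℂ r x‖ ≤ 1 / 4 := by
    intro x hx
    have hs : ball x (K / (4 * W j ^ 2)) ⊆ DD W K := by
      intro x' hx' i
      refine ball_sub_D (h.pos i) (hx i) ?_
      rw [mem_ball, dist_eq_norm] at hx' ⊢
      refine (norm_le_pi_norm (x' - x) i).trans_lt (hx'.trans_le ?_)
      have := h.comp i j
      have := h.pos i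
      rw [show 2 * K - K = K by ring]
      exact div_le_div_of_nonneg_left (by linarith) (by positivity) (by nlinarith)
    refine (P281.MF.norm_fderiv_le_of_ball (by positivity) (d1.mono hs)
      fun y hy => b1 y (hs hy)).trans ?_
    rw [div_le_iff₀ (by positivity)]
    have e1 : C / W j ^ 2 * (9 / 8) = (9 / 8 * C) / W j ^ 2 := by ring
    have e2 : 1 / 4 * (K / (4 * W j ^ 2)) = (K / 16) / W j ^ 2 := by field_simp; ring
    rw [e1, e2]
    exact div_le_div_of_nonneg_right (by linarith [h.C_le]) (by positivity)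
  have b3 : ‖r α - r α'‖ ≤ 1 / 4 * ‖α - α'‖ :=
    (convex_DD h.pos _).norm_image_sub_le_of_norm_fderiv_le (𝕜 := ℂ)
      (fun x hx => d1.differentiableAt ((isOpen_DD h.pos K).mem_nhds (h.sub2 hx))) b2 hα' hα
  have b4 := hb.mul_lg_sub_le h.one_le (h.sub2 hα j) (h.sub2 hα' j)
  have b5 : ‖α j - α' j‖ ≤ ‖α - α'‖ := norm_le_pi_norm (α - α') j
  have hL := hb.log_nonneg
  have b6 : 10 / W j * (Real.log (W j) + 1 + 4 * W j / K) ≤ 1 / 4 := by
    have e1 : 10 / W j * (Real.log (W j) + 1 + 4 * W j / K)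
        = 10 * ((Real.log (W j) + 1) / W j) + 40 / K := by field_simp; ring
    have e2 : (Real.log (W j) + 1) / W j ≤ 1 / 12800 := by
      rw [div_le_iff₀ hW]; nlinarith [hb.2]
    have e3 : 40 / K ≤ 40 / 200 := by gcongr
    linarith
  have b7 : ‖z.1 j * (α j * lg (W j) (α j) - α' j * lg (W j) (α' j))‖ ≤ 1 / 4 * ‖α - α'‖ := by
    rw [norm_mul]
    calc _ ≤ 10 / W j * ((Real.log (W j) + 1 + 4 * W j / K) * ‖α - α'‖) := by
          refine mul_le_mul (hz j) (b4.trans ?_) (norm_nonneg _) (by positivity)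
          gcongr
      _ ≤ _ := by rw [← mul_assoc]; gcongr
  rw [e]
  linarith [norm_sub_le (z.1 j * (α j * lg (W j) (α j) - α' j * lg (W j) (α' j))) (r α - r α')]

/-- the map `α ↦ a (α, y)` expands distances -/
theorem sub_le {α α' : ι → ℂ} (hα : α ∈ DD W (2 * K)) (hα' : α' ∈ DD W (2 * K)) {y : P}
    (hy : y ∈ Ω) : ‖α - α'‖ ≤ 3 * ‖a (α, y) - a (α', y)‖ := by
  have h1 := h.Th_lip (z := (a (α, y), y)) (h.norm_a_le (h.sub2 hα) hy) hy α hα α' hα'
  rw [(h.Th_fix (h.sub2 hα) (a (α, y), y)).2 rfl] at h1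
  have h2 : ‖Th a W ((a (α, y), y), α') - α'‖ ≤ ‖a (α, y) - a (α', y)‖ * (9 / 8) := by
    refine (pi_norm_le_iff_of_nonneg (by positivity)).2 fun j => ?_
    rw [Pi.sub_apply, h.Th_sub (h.sub2 hα'), norm_mul]
    exact mul_le_mul (norm_le_pi_norm (a (α, y) - a (α', y)) j)
      ((h.big j).den_le h.one_le h.one_le (h.sub2 hα' j)) (norm_nonneg _) (norm_nonneg _)
  have h3 := norm_sub_le_norm_sub_add_norm_sub α (Th a W ((a (α, y), y), α')) α'
  linarith [norm_nonneg (a (α, y) - a (α', y))]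

theorem inj {α α' : ι → ℂ} (hα : α ∈ DD W (2 * K)) (hα' : α' ∈ DD W (2 * K)) {y : P}
    (hy : y ∈ Ω) (he : a (α, y) = a (α', y)) : α = α' := by
  have := h.sub_le hα hα' hy
  rw [he, sub_self, norm_zero, mul_zero] at this
  exact sub_eq_zero.1 (norm_le_zero_iff.1 this)

open Classical in
/-- existence, in any closed set which is invariant under the iteration -/
lemma exists_sol_aux {A : ι → ℂ} (hA : A ∈ AD W (5 * K)) {y : P} (hy : y ∈ Ω) {T : Set ℂ}
    (hT : IsClosed T) (h0 : (0 : ℂ) ∈ T) (hAT : ∀ j, A j ∈ T)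
    (hinv : ∀ α ∈ DD W K, (∀ j, α j ∈ T) → ∀ j, Th a W ((A, y), α) j ∈ T) :
    ∃ α ∈ DD W (3 * K), (∀ j, α j ∈ T) ∧ a (α, y) = A := by
  have hK := h.K_ge
  set X : ι → Set ℂ := fun j => if ‖A j‖ * lev 1 (5 * K) (W j) < 1 then
    closedBall 0 (1 / (W j + 4 * K)) else closedBall (A j) (1 / 4 / W j) with hX
  have hAn : ∀ j, ‖A j‖ ≤ 5 / 4 / W j := fun j => endDom_norm (h.big j) (by linarith) (hA j)
  have hsub : ∀ j, X j ⊆ D (W j) (3 * K) := by
    intro j x hx
    have hW := h.pos j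
    have hb := (h.big j).le (by linarith)
    simp only [hX] at hx
    split_ifs at hx with hc
    · refine mem_D_of_norm hW ?_
      rw [mem_closedBall_zero_iff] at hx
      have e1 : ‖x‖ * W j ≤ 1 / (W j + 4 * K) * W j := by gcongr
      refine e1.trans_lt ?_
      rw [div_mul_eq_mul_div, one_mul, div_lt_iff₀ (by positivity), sub_mul, one_mul,
        div_mul_eq_mul_div, lt_sub_comm, div_lt_iff₀ hW]
      nlinarith
    · obtain ⟨f1, f2⟩ := (hA j).resolve_left hc
      rw [mem_closedBall, dist_eq_norm, le_div_iff₀ hW] at hx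
      have e1 : ‖3 + A j * W j‖ ≤ 3 := by
        have e2 : ‖3 + A j * W j‖ ^ 2 = 9 + 6 * ((A j).re * W j) + (‖A j‖ * W j) ^ 2 := by
          rw [mul_pow, Complex.sq_norm, Complex.sq_norm, Complex.normSq_apply,
            Complex.normSq_apply]
          simp
          ring
        have e3 : 2 * ((A j).re * W j) ≤ -(‖A j‖ * W j) := by nlinarith
        have e4 : 0 ≤ ‖A j‖ * W j := by positivity
        refine (abs_le_of_sq_le_sq' ?_ (by norm_num)).2
        nlinarith
      have e5 : ‖1 - x * W j - 4‖ ≤ ‖3 + A j * W j‖ + ‖x - A j‖ * W j := by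
        have e6 : 1 - x * W j - 4 = -((3 + A j * W j) + (x - A j) * W j) := by ring
        rw [e6, norm_neg]
        refine (norm_add_le _ _).trans_eq ?_
        rw [norm_mul, Complex.norm_real, Real.norm_of_nonneg hW.le]
      have e7 : 3 * K / W j ≤ 3 / 64 := by rw [div_le_iff₀ hW]; linarith
      show ‖1 - x * W j - 4‖ < 4 - 3 * K / W j
      linarith
  set Y : Set (ι → ℂ) := {α | ∀ j, α j ∈ X j ∩ T} with hY
  have hY3 : Y ⊆ DD W (3 * K) := fun α hα j => hsub j (hα j).1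
  have hXc : ∀ j, IsClosed (X j) := fun j => by
    simp only [hX]; split_ifs <;> exact isClosed_closedBall
  have hYc : IsClosed Y := by
    have : Y = ⋂ j, (fun α : ι → ℂ => α j) ⁻¹' (X j ∩ T) := by ext; simp [hY]
    rw [this]
    exact isClosed_iInter fun j => ((hXc j).inter hT).preimage (continuous_apply j)
  have hne : Y.Nonempty := by
    refine ⟨fun j => if ‖A j‖ * lev 1 (5 * K) (W j) < 1 then 0 else A j, fun j => ?_⟩
    have hW := h.pos j
    simp only [hX]
    split_ifs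
    · exact ⟨mem_closedBall_self (by positivity), h0⟩
    · exact ⟨mem_closedBall_self (by positivity), hAT j⟩
  have hmap : MapsTo (fun α => Th a W ((A, y), α)) Y Y := by
    intro α hα j
    have hαK := h.sub2 (h.sub3 (hY3 hα))
    refine ⟨?_, hinv α hαK (fun j => (hα j).2) j⟩
    have hW := h.pos j
    have hb := h.big j
    have hb' := hb.le (by linarith)
    have hL := hb.log_nonneg
    have hx := (hα j).1
    have c1 := h.close α hαK y hy j
    have hC := h.C_nonneg
    simp only [hX] at hx ⊢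
    split_ifs at hx ⊢ with hc
    · rw [mem_closedBall_zero_iff] at hx ⊢
      set L := Real.log (W j)
      have e0 : lev 1 (5 * K) (W j) = W j + L + 5 * K := by simp [lev, L]
      rw [e0, ← lt_div_iff₀ (by positivity)] at hc
      have e1 : ‖1 + α j * lg (W j) (α j)‖ ≤ 1 + 1 / W j * (L + 1) := by
        refine (norm_add_le _ _).trans ?_
        rw [norm_one, norm_mul]
        gcongr
        · exact hx.trans (by gcongr; linarith)
        · exact norm_lg_le (by linarith [hb.1]) h.one_le (hαK j)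
      have e2 : ‖A j - (a (α, y) j - g0 (W j) (α j))‖ ≤ 1 / (W j + L + 5 * K) + C / W j ^ 2 :=
        (norm_sub_le _ _).trans (add_le_add hc.le c1)
      unfold Th
      rw [norm_mul]
      refine (mul_le_mul e2 e1 (norm_nonneg _) (by positivity)).trans ?_
      rw [le_div_iff₀ (by positivity)]
      have f1 : (1 + 1 / W j * (L + 1)) * (W j + 4 * K) ≤ W j + L + 2 + 4 * K := by
        have : (1 + 1 / W j * (L + 1)) * (W j + 4 * K)
            = W j + L + 1 + 4 * K + 4 * K * (L + 1) / W j := by field_simp; ring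
        rw [this]
        have : 4 * K * (L + 1) / W j ≤ 1 := by rw [div_le_one hW]; nlinarith [hb.2]
        linarith
      have f2 : L + 5 * K ≤ W j := by nlinarith [hb.2]
      have f3 : 1 / (W j + L + 5 * K) * (W j + L + 2 + 4 * K)
          = 1 - (K - 2) / (W j + L + 5 * K) := by field_simp; ring
      have f4 : (K - 2) / (2 * W j) ≤ (K - 2) / (W j + L + 5 * K) :=
        div_le_div_of_nonneg_left (by linarith) (by positivity) (by linarith)
      have f5 : C / W j ^ 2 * (W j + L + 2 + 4 * K) ≤ C / W j ^ 2 * (2 * W j) := by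
        gcongr; linarith
      have f6 : C / W j ^ 2 * (2 * W j) ≤ (K - 2) / (2 * W j) := by
        rw [show C / W j ^ 2 * (2 * W j) = 4 * C / (2 * W j) by field_simp; ring]
        exact div_le_div_of_nonneg_right (by linarith [h.C_le]) (by positivity)
      calc _ = (1 / (W j + L + 5 * K) + C / W j ^ 2) * ((1 + 1 / W j * (L + 1)) * (W j + 4 * K)) := by
            ring
        _ ≤ (1 / (W j + L + 5 * K) + C / W j ^ 2) * (W j + L + 2 + 4 * K) := by gcongr
        _ ≤ 1 := by rw [add_mul, f3]; linarith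
    · rw [mem_closedBall, dist_eq_norm]
      have e : Th a W ((A, y), α) j - A j = A j * (α j * lg (W j) (α j))
          - (a (α, y) j - g0 (W j) (α j)) * (1 + α j * lg (W j) (α j)) := by
        unfold Th; ring
      have e1 : ‖A j * (α j * lg (W j) (α j))‖ ≤ 5 / 4 / W j * (1 / 8) := by
        rw [norm_mul]
        exact mul_le_mul (hAn j) (hb.mul_lg_le h.one_le h.one_le (hαK j)) (norm_nonneg _)
          (by positivity)
      have e2 : ‖(a (α, y) j - g0 (W j) (α j)) * (1 + α j * lg (W j) (α j))‖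
          ≤ 1 / 1280 / W j * (9 / 8) := by
        rw [norm_mul]
        exact mul_le_mul (c1.trans (h.C_div_le j)) (hb.den_le h.one_le h.one_le (hαK j))
          (norm_nonneg _) (by positivity)
      rw [e]
      refine (norm_sub_le _ _).trans ((add_le_add e1 e2).trans ?_)
      rw [show 5 / 4 / W j * (1 / 8) + 1 / 1280 / W j * (9 / 8)
        = (5 / 4 * (1 / 8) + 1 / 1280 * (9 / 8)) / W j by ring]
      exact div_le_div_of_nonneg_right (by norm_num) hW.le
  have hz : ∀ j, ‖A j‖ ≤ 10 / W j := fun j =>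
    (hAn j).trans (div_le_div_of_nonneg_right (by norm_num) (h.pos j).le)
  obtain ⟨α, hα, hfix⟩ := exists_fixed_closed hYc hne hmap fun x hx x' hx' =>
    h.Th_lip (z := (A, y)) hz hy x (h.sub3 (hY3 hx)) x' (h.sub3 (hY3 hx'))
  exact ⟨α, hY3 hα, fun j => (hα j).2, (h.Th_fix (h.sub2 (h.sub3 (hY3 hα))) (A, y)).1 hfix⟩

end ChartIn

open Classical in
/-- the profile parameters as functions of the canonical parameters -/
noncomputable def inv (a : (ι → ℂ) × P → ι → ℂ) (W : ι → ℝ) (K : ℝ) (z : (ι → ℂ) × P) : ι → ℂ :=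
  if h : ∃ α ∈ DD W (2 * K), a (α, z.2) = z.1 then h.choose else 0

namespace ChartIn

variable (h : ChartIn a W K C Ω)
include h

theorem inv_eq {z : (ι → ℂ) × P} (hy : z.2 ∈ Ω) {α : ι → ℂ} (hα : α ∈ DD W (2 * K))
    (he : a (α, z.2) = z.1) : inv a W K z = α := by
  have hex : ∃ α ∈ DD W (2 * K), a (α, z.2) = z.1 := ⟨α, hα, he⟩
  unfold inv
  rw [dif_pos hex]
  exact h.inj hex.choose_spec.1 hα hy (hex.choose_spec.2.trans he.symm)

theorem inv_spec {z : (ι → ℂ) × P} (hz : z ∈ AD W (5 * K) ×ˢ Ω) :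
    inv a W K z ∈ DD W (3 * K) ∧ a (inv a W K z, z.2) = z.1 := by
  obtain ⟨α, h1, -, h2⟩ := h.exists_sol_aux hz.1 hz.2 isClosed_univ (mem_univ _)
    (fun _ => mem_univ _) fun _ _ _ _ => mem_univ _
  rw [h.inv_eq hz.2 (h.sub3 h1) h2]
  exact ⟨h1, h2⟩

theorem inv_real {z : (ι → ℂ) × P} (hz : z ∈ AD W (5 * K) ×ˢ Ω) (hre : ∀ j, (z.1 j).im = 0)
    (ha : ∀ α ∈ DD W K, (∀ j, (α j).im = 0) → ∀ j, (a (α, z.2) j).im = 0) (j : ι) :
    (inv a W K z j).im = 0 := by
  obtain ⟨α, h1, h3, h2⟩ := h.exists_sol_aux hz.1 hz.2 (T := {x : ℂ | x.im = 0})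
    (isClosed_eq Complex.continuous_im continuous_const) rfl hre fun α hα hα' j => by
      have e1 := ha α hα hα' j
      have e2 := im_g0 (h.pos j) (by linarith [h.K_ge]) (hα j) (hα' j)
      have e3 := im_lg (h.pos j) (by linarith [h.K_ge]) (hα j) (hα' j)
      have e4 : (α j).im = 0 := hα' j
      simp [Th, e1, e2, e3, e4, hre j]
  rw [h.inv_eq hz.2 (h.sub3 h1) h2]
  exact h3 j

theorem differentiableOn_inv : DifferentiableOn ℂ (inv a W K) (AD W (5 * K) ×ˢ Ω) := by
  intro z hz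
  apply DifferentiableAt.differentiableWithinAt
  have hO : AD W (5 * K) ×ˢ Ω ∈ 𝓝 z := ((isOpen_AD W _).prod h.isOpen).mem_nhds hz
  obtain ⟨h1, -⟩ := h.inv_spec hz
  have h2 := h.sub2 (h.sub3 h1)
  refine P218IN.differentiableAt_fixed (T := Th a W) (q := 1 / 2) (by norm_num) (by norm_num)
    (s := DD W (2 * K)) ((isOpen_DD h.pos _).mem_nhds (h.sub3 h1)) ?_ ?_ ?_
  · refine differentiableAt_pi.2 fun j => ?_
    have hb := h.big j
    have nD : D (W j) K ∈ 𝓝 (inv a W K z j) := (isOpen_D (h.pos j)).mem_nhds (h2 j)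
    have p : DifferentiableAt ℂ (fun q : ((ι → ℂ) × P) × (ι → ℂ) => q.2 j) (z, inv a W K z) := by
      fun_prop
    have a0 : DifferentiableAt ℂ a (inv a W K z, z.2) :=
      h.holo.differentiableAt (((isOpen_DD h.pos K).prod h.isOpen).mem_nhds ⟨h2, hz.2⟩)
    have a1 : DifferentiableAt ℂ (fun q : ((ι → ℂ) × P) × (ι → ℂ) => a (q.2, q.1.2))
        (z, inv a W K z) := a0.comp (z, inv a W K z) (by fun_prop)
    have g1 := ((hb.differentiableOn_g0 h.one_le h.one_le).differentiableAt nD).comp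
      (z, inv a W K z) p
    have l1 := ((differentiableOn_lg (h.pos j) (by linarith [h.K_ge])).differentiableAt nD).comp
      (z, inv a W K z) p
    have q1 : DifferentiableAt ℂ (fun q : ((ι → ℂ) × P) × (ι → ℂ) => q.1.1 j)
        (z, inv a W K z) := by fun_prop
    exact (q1.sub ((differentiableAt_pi.1 a1 j).sub g1)).mul ((p.mul l1).const_add 1)
  · filter_upwards [hO] with z' hz'
    obtain ⟨e1, e2⟩ := h.inv_spec hz'
    exact ⟨h.sub3 e1, (h.Th_fix (h.sub2 (h.sub3 e1)) z').2 e2⟩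
  · filter_upwards [hO] with z' hz'
    refine h.Th_lip (fun j => (endDom_norm (h.big j) (by linarith [h.K_ge]) (hz'.1 j)).trans ?_)
      hz'.2
    exact div_le_div_of_nonneg_right (by norm_num) (h.pos j).le

/-- stability: an approximate solution is close to the solution -/
theorem inv_sub_le {z : (ι → ℂ) × P} (hz : z ∈ AD W (5 * K) ×ˢ Ω) {α : ι → ℂ}
    (hα : α ∈ DD W (2 * K)) : ‖inv a W K z - α‖ ≤ 3 * ‖z.1 - a (α, z.2)‖ := by
  obtain ⟨e1, e2⟩ := h.inv_spec hz
  have := h.sub_le (h.sub3 e1) hα hz.2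
  rwa [e2] at this

end ChartIn

end Vale.Agent.P218CH
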