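import Vale.Agent.P218CO.Holo

/-! Dyadic comparison of holomorphic functions on shrinking discs: convergence of the Taylor
coefficients of order at most two. -/

open Set Filter Metric Topology

namespace Vale.Agent.P218CH

variable {O : Type*} [NormedAddCommGroup O] [NormedSpace ℂ O]

/-- divided difference at `0` -/
noncomputable def ds (f : ℂ → O) : ℂ → O := dslope f 0

lemma ds_diff [CompleteSpace O] {f : ℂ → O} {R : ℝ} (hR : 0 < R)
    (hf : DifferentiableOn ℂ f (ball 0 R)) : DifferentiableOn ℂ (ds f) (ball 0 R) :=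
  (Complex.differentiableOn_dslope (ball_mem_nhds 0 hR)).2 hf

lemma ds_le {f : ℂ → O} {R M : ℝ} (hf : DifferentiableOn ℂ f (ball 0 R))
    (hM : ∀ z ∈ ball (0 : ℂ) R, ‖f z‖ ≤ M) : ∀ z ∈ ball (0 : ℂ) R, ‖ds f z‖ ≤ 2 * M / R := by
  intro z hz
  have hR : 0 < R := nonempty_ball.1 ⟨z, hz⟩
  refine Complex.norm_dslope_le_div_of_mapsTo_ball hf (fun y hy => ?_) hz
  rw [mem_closedBall, dist_eq_norm]
  linarith [norm_sub_le (f y) (f 0), hM y hy, hM 0 (mem_ball_self hR)]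

lemma ds_sub {f g : ℂ → O} (hf : DifferentiableAt ℂ f 0) (hg : DifferentiableAt ℂ g 0) :
    ds (fun z => f z - g z) = fun z => ds f z - ds g z := by
  funext z
  unfold ds
  rcases eq_or_ne z 0 with rfl | hz
  · simp only [dslope_same]
    exact deriv_sub hf hg
  · simp only [dslope_of_ne _ hz, slope_def_module, ← smul_sub]
    congr 1
    abel

lemma ds_eq (f : ℂ → O) (z : ℂ) : f z = f 0 + z • ds f z := by
  have := sub_smul_dslope f 0 z
  rw [sub_zero] at this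
  unfold ds
  rw [this]
  abel

lemma taylor3 (f : ℂ → O) (z : ℂ) :
    f z = f 0 + z • ds f 0 + z ^ 2 • ds (ds f) 0 + z ^ 3 • ds (ds (ds f)) z := by
  rw [ds_eq f z, ds_eq (ds f) z, ds_eq (ds (ds f)) z]
  simp only [smul_add, smul_smul]
  rw [show z * z = z ^ 2 by ring, show z * z ^ 2 = z ^ 3 by ring]
  abel

lemma dyadic_induction {P : ℝ → Prop} {W0 : ℝ} (h0 : 0 < W0)
    (hb : ∀ W, W0 ≤ W → W ≤ 2 * W0 → P W) (hs : ∀ W, W0 ≤ W → P W → P (2 * W)) :
    ∀ W, W0 ≤ W → P W := by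
  have H : ∀ k : ℕ, ∀ W, W0 ≤ W → W ≤ 2 ^ (k + 1) * W0 → P W := by
    intro k
    induction k with
    | zero => intro W h1 h2; exact hb W h1 (by simpa using h2)
    | succ k ih =>
      intro W h1 h2
      by_cases h : W ≤ 2 * W0
      · exact hb W h1 h
      · have h3 : W0 ≤ W / 2 := by linarith
        have h4 := hs (W / 2) h3 (ih (W / 2) h3 (by rw [pow_succ] at h2; linarith))
        rwa [show 2 * (W / 2) = W by ring] at h4
  intro W hW
  obtain ⟨k, hk⟩ := pow_unbounded_of_one_lt (W / W0) (one_lt_two (α := ℝ))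
  refine H k W hW ?_
  rw [div_lt_iff₀ h0] at hk
  have : (2 : ℝ) ^ k * W0 ≤ 2 ^ (k + 1) * W0 := by
    gcongr
    · norm_num
    · omega
  linarith

lemma telescope [CompleteSpace O] {u : ℝ → O} {ψ : ℝ → ℝ} {W0 ρ : ℝ} (h0 : 0 < W0) (hρ0 : 0 ≤ ρ)
    (hρ : ρ < 1) (hψ0 : ∀ W, W0 ≤ W → 0 ≤ ψ W) (hψ : ∀ W, W0 ≤ W → ψ (2 * W) ≤ ρ * ψ W)
    (hu : ∀ W W', W0 ≤ W → 2 * W ≤ W' → W' ≤ 4 * W → ‖u W' - u W‖ ≤ ψ W) :
    ∃ Y, ∀ W, W0 ≤ W → ‖u W - Y‖ ≤ ψ W / (1 - ρ) := by
  have h1ρ : 0 < 1 - ρ := by linarith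
  have H : ∀ k : ℕ, ∀ W W', W0 ≤ W → 2 * W ≤ W' → W' ≤ 2 ^ (k + 2) * W →
      ‖u W' - u W‖ ≤ ψ W / (1 - ρ) := by
    have base : ∀ W W', W0 ≤ W → 2 * W ≤ W' → W' ≤ 4 * W → ‖u W' - u W‖ ≤ ψ W / (1 - ρ) := by
      intro W W' a b c
      refine (hu W W' a b c).trans ?_
      rw [le_div_iff₀ h1ρ]
      nlinarith [hψ0 W a]
    intro k
    induction k with
    | zero => intro W W' a b c; exact base W W' a b (by norm_num at c; linarith)
    | succ k ih =>
      intro W W' a b c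
      by_cases h : W' ≤ 4 * W
      · exact base W W' a b h
      · have i1 := ih (2 * W) W' (by linarith) (by linarith)
          (by rw [show k + 1 + 2 = (k + 2) + 1 by ring, pow_succ] at c; linarith)
        have i2 := hu W (2 * W) a le_rfl (by linarith)
        have i3 : ‖u W' - u W‖ ≤ ‖u W' - u (2 * W)‖ + ‖u (2 * W) - u W‖ :=
          norm_sub_le_norm_sub_add_norm_sub _ _ _
        have i4 : ψ (2 * W) / (1 - ρ) ≤ ρ * ψ W / (1 - ρ) := by gcongr; exact hψ W a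
        have i5 : ρ * ψ W / (1 - ρ) + ψ W = ψ W / (1 - ρ) := by field_simp; ring
        linarith
  have H' : ∀ W W', W0 ≤ W → 2 * W ≤ W' → ‖u W' - u W‖ ≤ ψ W / (1 - ρ) := by
    intro W W' a b
    have hW : 0 < W := h0.trans_le a
    obtain ⟨k, hk⟩ := pow_unbounded_of_one_lt (W' / W) (one_lt_two (α := ℝ))
    refine H k W W' a b ?_
    rw [div_lt_iff₀ hW] at hk
    have : (2 : ℝ) ^ k * W ≤ 2 ^ (k + 2) * W := by
      gcongr
      · norm_num
      · omega
    linarith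
  have hge : ∀ k : ℕ, W0 ≤ 2 ^ k * W0 := fun k =>
    le_mul_of_one_le_left h0.le (one_le_pow₀ one_le_two)
  have hψk : ∀ k : ℕ, ψ (2 ^ k * W0) ≤ ρ ^ k * ψ W0 := by
    intro k
    induction k with
    | zero => simp
    | succ k ih =>
      have := hψ _ (hge k)
      rw [show (2 : ℝ) ^ (k + 1) * W0 = 2 * (2 ^ k * W0) by ring, pow_succ]
      nlinarith
  have hc : CauchySeq fun k : ℕ => u (2 ^ k * W0) := by
    refine cauchySeq_of_le_geometric ρ (ψ W0) hρ fun k => ?_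
    rw [dist_comm, dist_eq_norm, show (2 : ℝ) ^ (k + 1) * W0 = 2 * (2 ^ k * W0) by ring]
    refine (hu _ _ (hge k) le_rfl (by linarith [hge k])).trans ?_
    rw [mul_comm]
    simpa only [mul_comm] using hψk k
  obtain ⟨Y, hY⟩ := cauchySeq_tendsto_of_complete hc
  refine ⟨Y, fun W hW => ?_⟩
  have h2 : Tendsto (fun k : ℕ => ‖u W - u (2 ^ k * W0)‖) atTop (𝓝 ‖u W - Y‖) :=
    (tendsto_const_nhds.sub hY).norm
  refine le_of_tendsto h2 ?_
  have h3 : Tendsto (fun k : ℕ => (2 : ℝ) ^ k * W0) atTop atTop :=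
    (tendsto_pow_atTop_atTop_of_one_lt one_lt_two).atTop_mul_const h0
  filter_upwards [h3.eventually_ge_atTop (2 * W)] with k hk
  rw [norm_sub_rev]
  exact H' W _ hW hk

/-- a rate of decay between `W ^ (-2)` and `W ^ (-3)` -/
structure Rate (φ : ℝ → ℝ) (W0 q θ : ℝ) : Prop where
  W0_pos : 0 < W0
  q_gt : 1 / 8 < q
  q_lt : q < 1 / 4
  pos : ∀ W, W0 ≤ W → 0 < φ W
  two : ∀ W, W0 ≤ W → φ (2 * W) = q * φ W
  anti : ∀ W W', W0 ≤ W → W ≤ W' → φ W' ≤ φ W
  le : ∀ W, W0 ≤ W → φ W ≤ θ / W ^ 2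

/-- the constant in the comparison of two levels -/
noncomputable def cD (c W0 θ C1 C2 M : ℝ) : ℝ :=
  C2 + 8 * (4 * M * W0 / c + 16 * C2 * θ / (c * W0)) * C1

/-- the constant in the final estimate -/
noncomputable def cE (c W0 q θ C1 C2 M φ0 : ℝ) : ℝ :=
  cD c W0 θ C1 C2 M * (73 / (1 - 4 * q) + 64 / (8 * q - 1)) + 64 * M / (q * φ0)

section
variable [CompleteSpace O] {φ : ℝ → ℝ} {W0 q θ c C1 C2 M : ℝ} {F : ℝ → ℂ → O}

lemma level_sub_le (hφ : Rate φ W0 q θ) (hc : 0 < c) (h1 : 0 ≤ C1) (h2 : 0 ≤ C2) (hM0 : 0 ≤ M)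
    (hsm : 128 * C1 * θ ≤ c * W0)
    (hF : ∀ W, W0 ≤ W → DifferentiableOn ℂ (F W) (ball 0 (c / W)))
    (hM : ∀ W, W0 ≤ W → W ≤ 2 * W0 → ∀ g ∈ ball (0 : ℂ) (c / W), ‖F W g‖ ≤ M)
    (hstep : ∀ W W', W0 ≤ W → 2 * W ≤ W' → W' ≤ 4 * W → ∀ g' ∈ ball (0 : ℂ) (c / W'),
      ∃ g, ‖g - g'‖ ≤ C1 * φ W ∧ ‖F W' g' - F W g‖ ≤ C2 * φ W) :
    ∀ W W', W0 ≤ W → 2 * W ≤ W' → W' ≤ 4 * W → ∀ g ∈ ball (0 : ℂ) (c / W'),
      ‖F W' g - F W g‖ ≤ cD c W0 θ C1 C2 M * φ W := by
  have h0 := hφ.W0_pos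
  have hθ : 0 ≤ θ := by
    have a := (hφ.pos W0 le_rfl).trans_le (hφ.le W0 le_rfl)
    exact (div_pos_iff_of_pos_right (by positivity)).1 a |>.le
  set A := 4 * M * W0 / c + 16 * C2 * θ / (c * W0) with hA
  have hA0 : 0 ≤ A := by positivity
  have hcD : cD c W0 θ C1 C2 M = C2 + 8 * A * C1 := rfl
  -- one step, given a bound for the first divided difference
  have key : ∀ W, W0 ≤ W → (∀ g ∈ ball (0 : ℂ) (c / W), ‖ds (F W) g‖ ≤ 2 * A) →
      ∀ W', 2 * W ≤ W' → W' ≤ 4 * W → ∀ g ∈ ball (0 : ℂ) (c / W'),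
        ‖F W' g - F W g‖ ≤ cD c W0 θ C1 C2 M * φ W := by
    intro W hW ha W' a b g' hg'
    have hW0 : 0 < W := h0.trans_le hW
    obtain ⟨g, e1, e2⟩ := hstep W W' hW a b g' hg'
    have hg1 : ‖g'‖ < c / (2 * W) := by
      refine (mem_ball_zero_iff.1 hg').trans_le ?_
      gcongr
    have hs1 : C1 * φ W ≤ c / (4 * W) := by
      have e3 : C1 * φ W ≤ C1 * (θ / W ^ 2) := by gcongr; exact hφ.le W hW
      refine e3.trans ?_
      rw [← mul_div_assoc, div_le_div_iff₀ (by positivity) (by positivity)]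
      have : c * W0 ≤ c * W := by gcongr
      nlinarith [mul_nonneg h1 hθ]
    have e4 : c / W - c / (4 * W) = c / (2 * W) + c / (4 * W) := by field_simp; ring
    have hp : 0 < c / (4 * W) := by positivity
    have m1 : g' ∈ ball (0 : ℂ) (c / W - c / (4 * W)) := by
      rw [mem_ball_zero_iff, e4]; linarith
    have m2 : g ∈ ball (0 : ℂ) (c / W - c / (4 * W)) := by
      rw [mem_ball_zero_iff, e4]
      have : ‖g‖ ≤ ‖g - g'‖ + ‖g'‖ := by simpa using norm_add_le (g - g') g'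
      linarith
    have hd : DifferentiableOn ℂ (fun z => F W z - F W 0) (ball 0 (c / W)) :=
      (hF W hW).sub_const _
    have hb : ∀ z ∈ ball (0 : ℂ) (c / W), ‖F W z - F W 0‖ ≤ c / W * (2 * A) := by
      intro z hz
      rw [ds_eq (F W) z, add_sub_cancel_left, norm_smul]
      exact mul_le_mul (mem_ball_zero_iff.1 hz).le (ha z hz) (norm_nonneg _) (by positivity)
    have hl := P218CO.lip_inner hp hd hb m2 m1
    rw [sub_sub_sub_cancel_right] at hl
    have e5 : c / W * (2 * A) / (c / (4 * W)) = 8 * A := by field_simp; ring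
    rw [e5] at hl
    have e6 : 8 * A * ‖g - g'‖ ≤ 8 * A * (C1 * φ W) := by gcongr
    have e7 : ‖F W' g' - F W g'‖ ≤ ‖F W' g' - F W g‖ + ‖F W g - F W g'‖ :=
      norm_sub_le_norm_sub_add_norm_sub _ _ _
    rw [hcD]
    linarith
  have main : ∀ W, W0 ≤ W → ∀ g ∈ ball (0 : ℂ) (c / W), ‖ds (F W) g‖ ≤ A * (2 - W0 / W) := by
    refine dyadic_induction h0 (fun W a b g hg => ?_) fun W a ih g hg => ?_
    · have hW0 : 0 < W := h0.trans_le a
      refine (ds_le (hF W a) (hM W a b) g hg).trans ?_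
      have e1 : 2 * M / (c / W) ≤ 4 * M * W0 / c := by
        rw [div_div_eq_mul_div]
        exact div_le_div_of_nonneg_right (by nlinarith) hc.le
      have e2 : W0 / W ≤ 1 := (div_le_one hW0).2 a
      have e3 : 4 * M * W0 / c ≤ A := by rw [hA]; exact le_add_of_nonneg_right (by positivity)
      nlinarith
    · have hW0 : 0 < W := h0.trans_le a
      have ih' : ∀ g ∈ ball (0 : ℂ) (c / W), ‖ds (F W) g‖ ≤ 2 * A := fun g hg =>
        (ih g hg).trans (by have : 0 ≤ W0 / W := by positivity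
                            nlinarith)
      have hk := key W a ih' (2 * W) le_rfl (by linarith)
      have hsub : ball (0 : ℂ) (c / (2 * W)) ⊆ ball 0 (c / W) :=
        ball_subset_ball (by gcongr; linarith)
      have hp : 0 < c / (2 * W) := by positivity
      have d1 := hF (2 * W) (by linarith)
      have d2 := (hF W a).mono hsub
      have e1 := ds_le (d1.sub d2) hk g hg
      have e2 : ds (F (2 * W) - F W) g = ds (F (2 * W)) g - ds (F W) g :=
        congrFun (ds_sub (d1.differentiableAt (ball_mem_nhds 0 hp))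
          (d2.differentiableAt (ball_mem_nhds 0 hp))) g
      rw [e2] at e1
      have e3 := ih g (hsub hg)
      have e4 : ‖ds (F (2 * W)) g‖ ≤ ‖ds (F (2 * W)) g - ds (F W) g‖ + ‖ds (F W) g‖ := by
        simpa using norm_add_le (ds (F (2 * W)) g - ds (F W) g) (ds (F W) g)
      have e5 : 2 * (cD c W0 θ C1 C2 M * φ W) / (c / (2 * W)) ≤ A * (W0 / (2 * W)) := by
        have f1 : cD c W0 θ C1 C2 M * φ W ≤ (C2 + 8 * A * C1) * (θ / W ^ 2) := by
          rw [hcD]; gcongr; exact hφ.le W a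
        have f2 : 2 * (cD c W0 θ C1 C2 M * φ W) / (c / (2 * W))
            ≤ 2 * ((C2 + 8 * A * C1) * (θ / W ^ 2)) / (c / (2 * W)) := by gcongr
        refine f2.trans ?_
        have f3 : 2 * ((C2 + 8 * A * C1) * (θ / W ^ 2)) / (c / (2 * W))
            = (8 * (C2 + 8 * A * C1) * θ / c) / (2 * W) := by field_simp; ring
        rw [f3, ← mul_div_assoc]
        gcongr
        rw [div_le_iff₀ hc]
        have f4 : 16 * C2 * θ ≤ A * (c * W0) := by
          have : 16 * C2 * θ / (c * W0) ≤ A := by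
            rw [hA]; exact le_add_of_nonneg_left (by positivity)
          rwa [div_le_iff₀ (by positivity)] at this
        have f5 : A * (128 * C1 * θ) ≤ A * (c * W0) := by gcongr
        nlinarith
      have e6 : A * (2 - W0 / (2 * W)) = A * (2 - W0 / W) + A * (W0 / (2 * W)) := by
        field_simp; ring
      linarith
  intro W W' a b c' g hg
  have hW0 : 0 < W := h0.trans_le a
  refine key W a (fun g hg => (main W a g hg).trans ?_) W' b c' g hg
  have : 0 ≤ W0 / W := by positivity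
  nlinarith

theorem dyad0 (hφ : Rate φ W0 q θ) (hc : 0 < c) (h1 : 0 ≤ C1) (h2 : 0 ≤ C2) (hM0 : 0 ≤ M)
    (hsm : 128 * C1 * θ ≤ c * W0)
    (hF : ∀ W, W0 ≤ W → DifferentiableOn ℂ (F W) (ball 0 (c / W)))
    (hM : ∀ W, W0 ≤ W → W ≤ 2 * W0 → ∀ g ∈ ball (0 : ℂ) (c / W), ‖F W g‖ ≤ M)
    (hstep : ∀ W W', W0 ≤ W → 2 * W ≤ W' → W' ≤ 4 * W → ∀ g' ∈ ball (0 : ℂ) (c / W'),
      ∃ g, ‖g - g'‖ ≤ C1 * φ W ∧ ‖F W' g' - F W g‖ ≤ C2 * φ W) :
    ∃ Y0 Y1 Y2 : O, ∀ W, W0 ≤ W →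
      ‖F W 0 - Y0‖ ≤ cD c W0 θ C1 C2 M * φ W / (1 - 4 * q) ∧
      ‖deriv (F W) 0 - Y1‖ ≤ cD c W0 θ C1 C2 M * φ W * (8 * W / c) / (1 - 4 * q) ∧
      ‖ds (ds (F W)) 0 - Y2‖ ≤ cD c W0 θ C1 C2 M * φ W * (8 * W / c) ^ 2 / (1 - 4 * q) ∧
      ∀ g ∈ ball (0 : ℂ) (c / W), ‖F W g - (Y0 + g • Y1 + g ^ 2 • Y2)‖
        ≤ cE c W0 q θ C1 C2 M (φ W0) * φ W := by
  have h0 := hφ.W0_pos
  have hq1 := hφ.q_gt
  have hq2 := hφ.q_lt
  have hθ : 0 ≤ θ := by
    have a := (hφ.pos W0 le_rfl).trans_le (hφ.le W0 le_rfl)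
    exact (div_pos_iff_of_pos_right (by positivity)).1 a |>.le
  have hL := level_sub_le hφ hc h1 h2 hM0 hsm hF hM hstep
  set D := cD c W0 θ C1 C2 M with hD
  have hD0 : 0 ≤ D := by rw [hD]; unfold cD; positivity
  -- divided differences of the differences
  have dd : ∀ W W', W0 ≤ W → 2 * W ≤ W' → W' ≤ 4 * W → ∀ g ∈ ball (0 : ℂ) (c / W'),
      ‖ds (F W') g - ds (F W) g‖ ≤ D * φ W * (2 * W' / c) ∧
      ‖ds (ds (F W')) g - ds (ds (F W)) g‖ ≤ D * φ W * (2 * W' / c) ^ 2 ∧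
      ‖ds (ds (ds (F W'))) g - ds (ds (ds (F W))) g‖ ≤ D * φ W * (2 * W' / c) ^ 3 := by
    intro W W' a b b' g hg
    have hW0 : 0 < W := h0.trans_le a
    have hW' : 0 < W' := by linarith
    have hp : 0 < c / W' := by positivity
    have hsub : ball (0 : ℂ) (c / W') ⊆ ball 0 (c / W) := ball_subset_ball (by gcongr; linarith)
    have n0 := ball_mem_nhds (0 : ℂ) hp
    have d1 := hF W' (by linarith)
    have d2 := (hF W a).mono hsub
    have d3 := ds_diff hp d1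
    have d4 := ds_diff hp d2
    have d5 := ds_diff hp d3
    have d6 := ds_diff hp d4
    have e1 := ds_le (f := fun z => F W' z - F W z) (d1.sub d2) (hL W W' a b b')
    rw [ds_sub (d1.differentiableAt n0) (d2.differentiableAt n0)] at e1
    have e2 := ds_le (f := fun z => ds (F W') z - ds (F W) z) (d3.sub d4) e1
    rw [ds_sub (d3.differentiableAt n0) (d4.differentiableAt n0)] at e2
    have e3 := ds_le (f := fun z => ds (ds (F W')) z - ds (ds (F W)) z) (d5.sub d6) e2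
    rw [ds_sub (d5.differentiableAt n0) (d6.differentiableAt n0)] at e3
    refine ⟨(e1 g hg).trans_eq ?_, (e2 g hg).trans_eq ?_, (e3 g hg).trans_eq ?_⟩ <;>
      field_simp
  have tel : ∀ (i : ℕ) (u : ℝ → O), i ≤ 2 → (∀ W W', W0 ≤ W → 2 * W ≤ W' → W' ≤ 4 * W →
      ‖u W' - u W‖ ≤ D * φ W * (2 * W' / c) ^ i) →
      ∃ Y, ∀ W, W0 ≤ W → ‖u W - Y‖ ≤ D * φ W * (8 * W / c) ^ i / (1 - 4 * q) := by
    intro i u hi hu
    refine telescope (ψ := fun W => D * φ W * (8 * W / c) ^ i) h0 (by linarith) (by linarith)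
      (fun W a => ?_) (fun W a => ?_) fun W W' a b b' => (hu W W' a b b').trans ?_
    · have := hφ.pos W a
      have : 0 < W := h0.trans_le a
      positivity
    · have p1 := hφ.pos W a
      have p2 : 0 < W := h0.trans_le a
      rw [hφ.two W a, show 8 * (2 * W) / c = 2 * (8 * W / c) by ring, mul_pow]
      have p3 : (2 : ℝ) ^ i ≤ 2 ^ 2 := pow_le_pow_right₀ one_le_two hi
      have p4 : 0 ≤ D * φ W * (8 * W / c) ^ i * q := by positivity
      nlinarith
    · have p1 := hφ.pos W a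
      have p2 : 0 < W := h0.trans_le a
      have p3 : 0 < W' := by linarith
      have p4 : 2 * W' / c ≤ 8 * W / c := div_le_div_of_nonneg_right (by linarith) hc.le
      exact mul_le_mul_of_nonneg_left (pow_le_pow_left₀ (by positivity) p4 i) (by positivity)
  have zero_mem : ∀ W', 0 < W' → (0 : ℂ) ∈ ball (0 : ℂ) (c / W') := fun W' h =>
    mem_ball_self (by positivity)
  obtain ⟨Y0, hY0⟩ := tel 0 (fun W => F W 0) (by norm_num) fun W W' a b b' => by
    simpa using hL W W' a b b' 0 (zero_mem W' (by linarith))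
  obtain ⟨Y1, hY1⟩ := tel 1 (fun W => ds (F W) 0) (by norm_num) fun W W' a b b' => by
    simpa using (dd W W' a b b' 0 (zero_mem W' (by linarith))).1
  obtain ⟨Y2, hY2⟩ := tel 2 (fun W => ds (ds (F W)) 0) (by norm_num) fun W W' a b b' =>
    (dd W W' a b b' 0 (zero_mem W' (by linarith))).2.1
  have p0 := hφ.pos W0 le_rfl
  set E := D * (64 / (8 * q - 1)) + 64 * M / (q * φ W0) with hE
  have h8 : 0 < 8 * q - 1 := by linarith
  have hq0 : 0 < q := by linarith
  have third : ∀ W, W0 ≤ W → ∀ g ∈ ball (0 : ℂ) (c / W),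
      ‖ds (ds (ds (F W))) g‖ ≤ E * φ W * (W / c) ^ 3 := by
    refine dyadic_induction h0 (fun W a b g hg => ?_) fun W a ih g hg => ?_
    · have hW0 : 0 < W := h0.trans_le a
      have hp : 0 < c / W := by positivity
      have d1 := hF W a
      have e1 := ds_le (ds_diff hp (ds_diff hp d1)) (ds_le (ds_diff hp d1) (ds_le d1 (hM W a b)))
        g hg
      refine e1.trans ?_
      have e2 : 2 * (2 * (2 * M / (c / W)) / (c / W)) / (c / W) = 8 * M * (W / c) ^ 3 := by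
        field_simp; ring
      rw [e2]
      refine mul_le_mul_of_nonneg_right ?_ (by positivity)
      have e3 : q * φ W0 ≤ φ W := by rw [← hφ.two W0 le_rfl]; exact hφ.anti W _ a b
      have e4 : 64 * M / (q * φ W0) ≤ E := by
        rw [hE]; exact le_add_of_nonneg_left (by positivity)
      have e5 : 64 * M / (q * φ W0) * (q * φ W0) ≤ E * φ W :=
        mul_le_mul e4 e3 (by positivity) (le_trans (by positivity) e4)
      rw [div_mul_cancel₀ _ (by positivity)] at e5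
      linarith
    · have hW0 : 0 < W := h0.trans_le a
      have hsub : ball (0 : ℂ) (c / (2 * W)) ⊆ ball 0 (c / W) :=
        ball_subset_ball (by gcongr; linarith)
      have e1 := (dd W (2 * W) a le_rfl (by linarith) g hg).2.2
      have e2 := ih g (hsub hg)
      have e3 : ‖ds (ds (ds (F (2 * W)))) g‖ ≤ ‖ds (ds (ds (F (2 * W)))) g - ds (ds (ds (F W))) g‖
          + ‖ds (ds (ds (F W))) g‖ := by
        simpa using norm_add_le (ds (ds (ds (F (2 * W)))) g - ds (ds (ds (F W))) g)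
          (ds (ds (ds (F W))) g)
      rw [hφ.two W a]
      have e4 : D * (64 / (8 * q - 1)) ≤ E := by
        rw [hE]; exact le_add_of_nonneg_right (by positivity)
      have e5 : 64 * D ≤ E * (8 * q - 1) := by
        have : D * (64 / (8 * q - 1)) * (8 * q - 1) ≤ E * (8 * q - 1) := by gcongr
        rw [mul_assoc, div_mul_cancel₀ _ h8.ne'] at this
        linarith
      have p1 := hφ.pos W a
      have e6 : 64 * D * (φ W * (W / c) ^ 3) ≤ E * (8 * q - 1) * (φ W * (W / c) ^ 3) := by gcongr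
      have e7 : D * φ W * (2 * (2 * W) / c) ^ 3 = 64 * D * (φ W * (W / c) ^ 3) := by ring
      have e8 : E * (q * φ W) * (2 * W / c) ^ 3 = E * (8 * q) * (φ W * (W / c) ^ 3) := by ring
      rw [e8]
      rw [e7] at e1
      nlinarith
  refine ⟨Y0, Y1, Y2, fun W a => ⟨by simpa using hY0 W a, ?_, hY2 W a, fun g hg => ?_⟩⟩
  · have := hY1 W a
    simpa [ds] using this
  have hW0 : 0 < W := h0.trans_le a
  have p1 := hφ.pos W a
  have h4 : 0 < 1 - 4 * q := by linarith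
  have hgn : ‖g‖ ≤ c / W := (mem_ball_zero_iff.1 hg).le
  have e0 : F W g - (Y0 + g • Y1 + g ^ 2 • Y2) = (F W 0 - Y0) + g • (ds (F W) 0 - Y1)
      + g ^ 2 • (ds (ds (F W)) 0 - Y2) + g ^ 3 • ds (ds (ds (F W))) g := by
    conv_lhs => rw [taylor3 (F W) g]
    simp only [smul_sub]
    abel
  rw [e0]
  have b0 := hY0 W a
  have b1 : ‖g • (ds (F W) 0 - Y1)‖ ≤ c / W * (D * φ W * (8 * W / c) ^ 1 / (1 - 4 * q)) := by
    rw [norm_smul]
    exact mul_le_mul hgn (hY1 W a) (norm_nonneg _) (by positivity)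
  have b2 : ‖g ^ 2 • (ds (ds (F W)) 0 - Y2)‖
      ≤ (c / W) ^ 2 * (D * φ W * (8 * W / c) ^ 2 / (1 - 4 * q)) := by
    rw [norm_smul, norm_pow]
    exact mul_le_mul (by gcongr) (hY2 W a) (norm_nonneg _) (by positivity)
  have b3 : ‖g ^ 3 • ds (ds (ds (F W))) g‖ ≤ (c / W) ^ 3 * (E * φ W * (W / c) ^ 3) := by
    rw [norm_smul, norm_pow]
    exact mul_le_mul (by gcongr) (third W a g hg) (norm_nonneg _) (by positivity)
  have e1 : cE c W0 q θ C1 C2 M (φ W0) * φ W = D * φ W * (8 * W / c) ^ 0 / (1 - 4 * q)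
      + c / W * (D * φ W * (8 * W / c) ^ 1 / (1 - 4 * q))
      + (c / W) ^ 2 * (D * φ W * (8 * W / c) ^ 2 / (1 - 4 * q))
      + (c / W) ^ 3 * (E * φ W * (W / c) ^ 3) := by
    unfold cE
    rw [← hD, hE]
    field_simp
    ring
  rw [e1]
  refine (norm_add_le _ _).trans (add_le_add ((norm_add_le _ _).trans
    (add_le_add ((norm_add_le _ _).trans (add_le_add b0 b1)) b2)) b3)

end

end Vale.Agent.P218CH
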