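import Vale.Agent.P218EN.Poly
import Vale.Agent.P218CH.Dom

/-! Change of the profile parameter in the normalised jets. -/

namespace Vale.Agent.P218CH
open Set Complex Vale.Agent.P218EN Vale.Agent.P218EN.WA

/-- the profile with parameter `α` is admissible on `[a, b]` -/
structure Prof (a b : ℝ) (α : ℂ) : Prop where
  pos : 0 < a
  re : ∀ w ∈ Icc a b, 0 < (1 - α * w).re

/-- `√A` -/
noncomputable def rA (α : ℂ) (w : ℝ) : ℂ := Complex.sqrt (Af α w)

/-- ratio of the profiles, `μ² = (1 - α w) / (1 - α' w)` -/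
noncomputable def mu (α' α : ℂ) (w : ℝ) : ℂ := rA α' w / rA α w

/-- coefficient of `h` in `q'` -/
noncomputable def c1 (α' α : ℂ) (w : ℝ) : ℂ :=
  mu α' α w * ((Af α' w - Af α w) ^ 2 + 2 * Af α' w ^ 2 - 2 * Af α w ^ 2
    - 4 * xf w * (Af α' w - Af α w)) / Af α' w

/-- coefficient of `p` in `q'` -/
noncomputable def c2 (α' α : ℂ) (w : ℝ) : ℂ :=
  2 * mu α' α w * (Af α' w - Af α w) * Af α w / Af α' w

/-- coefficient of `t` in `s'` -/
noncomputable def c4 (α' α : ℂ) (w : ℝ) : ℂ := mu α' α w * (Af α' w - Af α w) / rA α' w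

/-- a function of `w` as an element of the Wiener algebra -/
noncomputable def fn (a b : ℝ) (f : ℝ → ℂ) : WA := sc (mkB a b f)

/-- the jets for the profile `α'` of the function whose jets for the profile `α` are `J` -/
noncomputable def rp (a b : ℝ) (α' α : ℂ) (J : Fin 6 → WA) : Fin 6 → WA :=
  ![fn a b (mu α' α) * (1 + J 0) - 1, fn a b (mu α' α) * J 1, fn a b (mu α' α) * J 2,
    fn a b (mu α' α) * (1 + J 0) + fn a b (mu α α') * (J 3 - (1 + J 0)),
    fn a b (c1 α' α) * (1 + J 0) + fn a b (c2 α' α) * J 3 + fn a b (mu α α') * J 4,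
    fn a b (c4 α' α) * J 1 + J 5]

/-- absolute jets on `[a, L]`, extended by constants -/
noncomputable def ab (a L : ℝ) (α : ℂ) (J : Fin 6 → WA) : Fin 6 → WA :=
  fun i => comp (cl a L) (rp a L 0 α J i)

variable {a b : ℝ} {α α' α'' : ℂ} {w : ℝ}

lemma Prof.zero (ha : 0 < a) : Prof a b 0 := ⟨ha, fun w _ => by simp⟩

lemma Prof.mono (h : Prof a b α) {b' : ℝ} (hb : b' ≤ b) : Prof a b' α :=
  ⟨h.pos, fun w hw => h.re w ⟨hw.1, hw.2.trans hb⟩⟩

lemma Prof.mono' (h : Prof a b α) {a' b' : ℝ} (ha : a ≤ a') (hb : b' ≤ b) : Prof a' b' α :=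
  ⟨h.pos.trans_le ha, fun w hw => h.re w ⟨ha.trans hw.1, hw.2.trans hb⟩⟩

lemma prof_of_D {W K : ℝ} (ha : 0 < a) (hK : 0 ≤ K) (hKW : K ≤ W) (h : α ∈ D W K) : Prof a W α := by
  refine ⟨ha, fun w hw => ?_⟩
  have hw0 : 0 < w := ha.trans_le hw.1
  have hW : 0 < W := hw0.trans_le hw.2
  have h1 := D_lower hW hKW hw0 hw.2 h
  have h2 := Complex.abs_re_le_norm (1 - α * w - 4)
  have h3 : (1 - α * w - 4 : ℂ).re = (1 - α * w).re - 4 := by simp
  have h4 := neg_abs_le (1 - α * w - 4 : ℂ).re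
  have h5 : 0 ≤ K / W := by positivity
  linarith

lemma Prof.w_pos (h : Prof a b α) (hw : w ∈ Icc a b) : 0 < w := h.pos.trans_le hw.1

lemma Prof.v_ne (h : Prof a b α) (hw : w ∈ Icc a b) : 1 - α * w ≠ 0 := fun h0 => by
  have := h.re w hw
  rw [h0] at this
  simp at this

lemma Prof.w_ne (h : Prof a b α) (hw : w ∈ Icc a b) : (w : ℂ) ≠ 0 := by
  exact_mod_cast (h.w_pos hw).ne'

lemma Prof.A_re (h : Prof a b α) (hw : w ∈ Icc a b) : 0 < (Af α w).re := by
  have h1 := h.re w hw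
  have h2 := h.w_pos hw
  have h3 : 0 < (2 * w * (1 - α * w) : ℂ).re := by
    have : (2 * w * (1 - α * w) : ℂ) = ((2 * w : ℝ) : ℂ) * (1 - α * w) := by push_cast; ring
    rw [this, re_ofReal_mul]
    positivity
  unfold Af
  rw [inv_re]
  refine div_pos h3 (normSq_pos.2 fun h0 => ?_)
  rw [h0] at h3
  simp at h3

lemma Prof.A_ne (h : Prof a b α) (hw : w ∈ Icc a b) : Af α w ≠ 0 := fun h0 => by
  have := h.A_re hw
  rw [h0] at this
  simp at this

lemma rA_sq (α : ℂ) (w : ℝ) : rA α w ^ 2 = Af α w := csqrt_sq _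

lemma Prof.rA_ne (h : Prof a b α) (hw : w ∈ Icc a b) : rA α w ≠ 0 := fun h0 =>
  h.A_ne hw (by rw [← rA_sq, h0]; simp)

lemma Prof.hasDerivAt_A (h : Prof a b α) (hw : w ∈ Icc a b) : HasDerivAt (Af α) (Af' α w) w := by
  have h0 := h.w_ne hw
  have h1 := h.v_ne hw
  have d0 : HasDerivAt (fun u : ℝ => (u : ℂ)) 1 w := ofRealCLM.hasDerivAt
  have d1 := ((d0.const_mul 2).mul ((d0.const_mul α).const_sub 1)).inv
    (mul_ne_zero (mul_ne_zero two_ne_zero h0) h1)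
  refine d1.congr_deriv ?_
  simp only [Af', Af, xf, Pi.mul_apply]
  field_simp
  ring

lemma hasDerivAt_xf (hw : 0 < w) : HasDerivAt xf (-(2 * xf w ^ 2)) w := by
  have h0 : (w : ℂ) ≠ 0 := by exact_mod_cast hw.ne'
  have d0 : HasDerivAt (fun u : ℝ => (u : ℂ)) 1 w := ofRealCLM.hasDerivAt
  have d1 := (d0.const_mul 2).inv (mul_ne_zero two_ne_zero h0)
  refine d1.congr_deriv ?_
  simp only [xf]
  field_simp

lemma Prof.hasDerivAt_rA (h : Prof a b α) (hw : w ∈ Icc a b) :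
    HasDerivAt (rA α) (rA α w * (Af α w - 2 * xf w)) w := by
  have d := (hasDerivAt_csqrt (h.A_re hw)).comp w (h.hasDerivAt_A hw)
  refine d.congr_deriv ?_
  have h1 := h.rA_ne hw
  have h2 := rA_sq α w
  unfold rA at h1 h2 ⊢
  rw [Af']
  generalize Complex.sqrt (Af α w) = r at *
  rw [← h2]
  field_simp
  ring

lemma hasDerivAt_mu (h' : Prof a b α') (h : Prof a b α) (hw : w ∈ Icc a b) :
    HasDerivAt (mu α' α) (mu α' α w * (Af α' w - Af α w)) w := by
  have d := (h'.hasDerivAt_rA hw).div (h.hasDerivAt_rA hw) (h.rA_ne hw)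
  refine d.congr_deriv ?_
  have := h.rA_ne hw
  unfold mu
  field_simp
  ring

lemma mu_sq (α' α : ℂ) (w : ℝ) : mu α' α w ^ 2 = Af α' w / Af α w := by
  rw [mu, div_pow, rA_sq, rA_sq]

lemma mu_sq' (h' : Prof a b α') (h : Prof a b α) (hw : w ∈ Icc a b) :
    mu α' α w ^ 2 = (1 - α * w) / (1 - α' * w) := by
  have := h.w_ne hw
  have := h.v_ne hw
  have := h'.v_ne hw
  rw [mu_sq, Af, Af]
  field_simp

lemma Prof.cA (h : Prof a b α) : ContinuousOn (Af α) (Icc a b) :=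
  fun _ hw => (h.hasDerivAt_A hw).continuousAt.continuousWithinAt

lemma Prof.cx (h : Prof a b α) : ContinuousOn xf (Icc a b) :=
  fun _ hw => (hasDerivAt_xf (h.w_pos hw)).continuousAt.continuousWithinAt

lemma Prof.cr (h : Prof a b α) : ContinuousOn (rA α) (Icc a b) :=
  fun _ hw => (h.hasDerivAt_rA hw).continuousAt.continuousWithinAt

lemma Prof.ce (h : Prof a b α) : ContinuousOn (ef α) (Icc a b) := by
  unfold ef
  exact ContinuousOn.div (by fun_prop) (by fun_prop) fun w hw =>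
    mul_ne_zero (by norm_num) (h.w_ne hw)

lemma cmu (h' : Prof a b α') (h : Prof a b α) : ContinuousOn (mu α' α) (Icc a b) :=
  fun _ hw => (hasDerivAt_mu h' h hw).continuousAt.continuousWithinAt

lemma cc1 (h' : Prof a b α') (h : Prof a b α) : ContinuousOn (c1 α' α) (Icc a b) := by
  have := cmu h' h
  have := h.cA
  have := h'.cA
  have := h.cx
  unfold c1
  exact ContinuousOn.div (by fun_prop) (by fun_prop) fun w hw => h'.A_ne hw

lemma cc2 (h' : Prof a b α') (h : Prof a b α) : ContinuousOn (c2 α' α) (Icc a b) := by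
  have := cmu h' h
  have := h.cA
  have := h'.cA
  unfold c2
  exact ContinuousOn.div (by fun_prop) (by fun_prop) fun w hw => h'.A_ne hw

lemma cc4 (h' : Prof a b α') (h : Prof a b α) : ContinuousOn (c4 α' α) (Icc a b) := by
  have := cmu h' h
  have := h.cA
  have := h'.cA
  have := h'.cr
  unfold c4
  exact ContinuousOn.div (by fun_prop) (by fun_prop) fun w hw => h'.rA_ne hw

lemma ev_fn {f : ℝ → ℂ} (hf : ContinuousOn f (Icc a b)) (hw : w ∈ Icc a b) (θ : ℝ) :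
    (fn a b f).ev w θ = f w := by rw [fn, ev_sc, mkB_of_mem hf hw]

lemma co_fn_mul {f : ℝ → ℂ} (hf : ContinuousOn f (Icc a b)) (hw : w ∈ Icc a b) (x : WA) (k : ℤ) :
    (fn a b f * x).co k w = f w * x.co k w := by rw [fn, co_sc_mul, mkB_of_mem hf hw]

/-- the coefficients of the constant `1` -/
def on (k : ℤ) : ℂ := if k = 0 then 1 else 0

lemma co_one' (k : ℤ) (w : ℝ) : (1 : WA).co k w = on k := by
  rw [co_one, on]; split_ifs <;> rfl

lemma mul_on (k : ℤ) : (k : ℂ) * on k = 0 := by unfold on; split_ifs with h <;> simp [h]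

section
variable (h' : Prof a b α') (h : Prof a b α) (J : Fin 6 → WA) (hw : w ∈ Icc a b)
include h' h hw

lemma co_rp0 (k : ℤ) : (rp a b α' α J 0).co k w = mu α' α w * (on k + (J 0).co k w) - on k := by
  simp [rp, co_fn_mul (cmu h' h) hw, co_one']

lemma co_rp1 (k : ℤ) : (rp a b α' α J 1).co k w = mu α' α w * (J 1).co k w := by
  simp [rp, co_fn_mul (cmu h' h) hw]

lemma co_rp2 (k : ℤ) : (rp a b α' α J 2).co k w = mu α' α w * (J 2).co k w := by
  simp [rp, co_fn_mul (cmu h' h) hw]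

lemma co_rp3 (k : ℤ) : (rp a b α' α J 3).co k w = mu α' α w * (on k + (J 0).co k w)
    + mu α α' w * ((J 3).co k w - (on k + (J 0).co k w)) := by
  simp [rp, co_fn_mul (cmu h' h) hw, co_fn_mul (cmu h h') hw, co_one']

lemma co_rp4 (k : ℤ) : (rp a b α' α J 4).co k w = c1 α' α w * (on k + (J 0).co k w)
    + c2 α' α w * (J 3).co k w + mu α α' w * (J 4).co k w := by
  simp [rp, co_fn_mul (cc1 h' h) hw, co_fn_mul (cc2 h' h) hw, co_fn_mul (cmu h h') hw, co_one']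

lemma co_rp5 (k : ℤ) : (rp a b α' α J 5).co k w = c4 α' α w * (J 1).co k w + (J 5).co k w := by
  simp [rp, co_fn_mul (cc4 h' h) hw]

lemma ev_rp0 (θ : ℝ) : (rp a b α' α J 0).ev w θ = mu α' α w * (1 + (J 0).ev w θ) - 1 := by
  simp [rp, ev_sub, ev_mul, ev_add, ev_one, ev_fn (cmu h' h) hw]

lemma ev_rp1 (θ : ℝ) : (rp a b α' α J 1).ev w θ = mu α' α w * (J 1).ev w θ := by
  simp [rp, ev_mul, ev_fn (cmu h' h) hw]

lemma ev_rp2 (θ : ℝ) : (rp a b α' α J 2).ev w θ = mu α' α w * (J 2).ev w θ := by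
  simp [rp, ev_mul, ev_fn (cmu h' h) hw]

lemma ev_rp3 (θ : ℝ) : (rp a b α' α J 3).ev w θ = mu α' α w * (1 + (J 0).ev w θ)
    + mu α α' w * ((J 3).ev w θ - (1 + (J 0).ev w θ)) := by
  simp [rp, ev_sub, ev_mul, ev_add, ev_one, ev_fn (cmu h' h) hw, ev_fn (cmu h h') hw]

lemma ev_rp4 (θ : ℝ) : (rp a b α' α J 4).ev w θ = c1 α' α w * (1 + (J 0).ev w θ)
    + c2 α' α w * (J 3).ev w θ + mu α α' w * (J 4).ev w θ := by
  simp [rp, ev_mul, ev_add, ev_one, ev_fn (cc1 h' h) hw, ev_fn (cc2 h' h) hw, ev_fn (cmu h h') hw]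

lemma ev_rp5 (θ : ℝ) : (rp a b α' α J 5).ev w θ = c4 α' α w * (J 1).ev w θ + (J 5).ev w θ := by
  simp [rp, ev_mul, ev_add, ev_fn (cc4 h' h) hw]

end

theorem jet_rp (h' : Prof a b α') (h : Prof a b α) {J : Fin 6 → WA} (hJ : Jet a b (Af α) J) :
    Jet a b (Af α') (rp a b α' α J) := by
  have key : ∀ k, ∀ w ∈ Icc a b, Af α' w * (rp a b α' α J 3).co k w
      = mu α' α w * (Af α' w - Af α w) * (on k + (J 0).co k w)
        + mu α' α w * (Af α w * (J 3).co k w) := by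
    intro k w hw
    have r1 := h.rA_ne hw
    have r2 := h'.rA_ne hw
    rw [co_rp3 h' h J hw, mu, mu, ← rA_sq α, ← rA_sq α']
    field_simp
    ring
  refine ⟨fun k w hw => ?_, fun k w hw => ?_, fun k w hw => ?_, fun k w hw => ?_,
    fun k w hw => ?_⟩
  · have d := (((hasDerivAt_mu h' h hw).hasDerivWithinAt (s := Icc a b)).mul
      ((hJ.d0 k w hw).const_add (on k))).sub_const (on k)
    rw [key k w hw]
    exact d.congr (fun u hu => co_rp0 h' h J hu k) (co_rp0 h' h J hw k)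
  · have m := (hasDerivAt_mu h' h hw).hasDerivWithinAt (s := Icc a b)
    have dA := ((h'.hasDerivAt_A hw).sub (h.hasDerivAt_A hw)).hasDerivWithinAt (s := Icc a b)
    have d := ((m.mul dA).mul ((hJ.d0 k w hw).const_add (on k))).add (m.mul (hJ.d3 k w hw))
    refine (d.congr (fun u hu => key k u hu) (key k w hw)).congr_deriv ?_
    have r1 := h.rA_ne hw
    have r2 := h'.rA_ne hw
    rw [co_rp4 h' h J hw]
    simp only [Pi.mul_apply, Pi.sub_apply, c1, c2, mu, Af', ← rA_sq α, ← rA_sq α']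
    field_simp
    ring
  · rw [co_rp1 h' h J hw, co_rp0 h' h J hw, hJ.t1 k w hw]
    simp only [Pi.one_apply]
    linear_combination (-(mu α' α w - 1) * I) * mul_on k
  · rw [co_rp2 h' h J hw, co_rp1 h' h J hw, hJ.t2 k w hw]
    simp only [Pi.one_apply]
    ring
  · have r1 := h.rA_ne hw
    have r2 := h'.rA_ne hw
    have e5 : (J 5).co k w = rA α w * (k * I) * (J 3).co k w := hJ.t5 k w hw
    have e1 : (J 1).co k w = 1 * (k * I) * (J 0).co k w := hJ.t1 k w hw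
    show _ = rA α' w * (k * I) * _
    have e0 := mul_on k
    rw [co_rp5 h' h J hw, co_rp3 h' h J hw, e5, e1]
    simp only [c4, mu, ← rA_sq α, ← rA_sq α']
    field_simp
    linear_combination (-(rA α' w ^ 2 - rA α w ^ 2)) * e0

theorem pE_rp {r r' x ε' η t u p q s : ℂ} (h : r ≠ 0) (h' : r' ≠ 0) :
    pE (r' ^ 2) x ε' r' (r' / r * (1 + η) - 1) (r' / r * t) (r' / r * u)
      (r' / r * (1 + η) + r / r' * (p - (1 + η)))
      (r' / r * ((r' ^ 2 - r ^ 2) ^ 2 + 2 * (r' ^ 2) ^ 2 - 2 * (r ^ 2) ^ 2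
        - 4 * x * (r' ^ 2 - r ^ 2)) / r' ^ 2 * (1 + η)
        + 2 * (r' / r) * (r' ^ 2 - r ^ 2) * r ^ 2 / r' ^ 2 * p + r / r' * q)
      (r' / r * (r' ^ 2 - r ^ 2) / r' * t + s)
    = (r' / r) ^ 2 * pE (r ^ 2) x ((r' / r) ^ 2 * ε') r η t u p q s := by
  obtain ⟨m, rfl⟩ : ∃ m, r' = m * r := ⟨r' / r, by field_simp⟩
  have hm : m ≠ 0 := left_ne_zero_of_mul h'
  obtain ⟨h, rfl⟩ : ∃ h, η = h - 1 := ⟨η + 1, by ring⟩
  obtain ⟨y, rfl⟩ : ∃ y, p = y + h := ⟨p - h, by ring⟩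
  simp only [pE, pa11, pa12, pa22, pb, pb0, add_sub_cancel, add_sub_cancel_right,
    add_sub_cancel_left, mul_div_cancel_right₀ _ ‹r ≠ 0›]
  generalize hl : 1 + ε' * (m * h) ^ 2 = l
  rw [show 1 + m ^ 2 * ε' * h ^ 2 = l by rw [← hl]; ring]
  field_simp
  ring

theorem EE_rp (h' : Prof a b α') (h : Prof a b α) (J : Fin 6 → WA) :
    WEq (Icc a b) (EE a b α' (rp a b α' α J)) (fn a b (fun w => mu α' α w ^ 2) * EE a b α J) := by
  rw [wEq_iff]
  intro w hw θ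
  have r1 := h.rA_ne hw
  have r2 := h'.rA_ne hw
  have e : ef α w = (rA α' w / rA α w) ^ 2 * ef α' w := by
    have := h.w_ne hw
    have := h'.v_ne hw
    have e1 := mu_sq' h' h hw
    rw [mu] at e1
    rw [e1, ef, ef, div_mul_div_comm, mul_comm (1 - α * (w : ℂ)), mul_div_mul_left _ _ this]
  rw [ev_mul, ev_fn (f := fun w => mu α' α w ^ 2) ((cmu h' h).pow 2) hw, ev_EE h'.cA h'.cx h'.ce h'.cr _ hw,
    ev_EE h.cA h.cx h.ce h.cr _ hw, ev_rp0 h' h J hw, ev_rp1 h' h J hw, ev_rp2 h' h J hw,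
    ev_rp3 h' h J hw, ev_rp4 h' h J hw, ev_rp5 h' h J hw, e]
  have := pE_rp (x := xf w) (ε' := ef α' w) (η := (J 0).ev w θ) (t := (J 1).ev w θ)
    (u := (J 2).ev w θ) (p := (J 3).ev w θ) (q := (J 4).ev w θ) (s := (J 5).ev w θ) r1 r2
  simp only [c1, c2, c4, mu, ← rA_sq α, ← rA_sq α']
  simp only [rA_sq]
  simp only [rA_sq] at this
  exact this

theorem rp_rp (h'' : Prof a b α'') (h' : Prof a b α') (h : Prof a b α) (J : Fin 6 → WA)
    (i : Fin 6) : WEq (Icc a b) (rp a b α'' α' (rp a b α' α J) i) (rp a b α'' α J i) := by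
  intro k w hw
  have r1 := h.rA_ne hw
  have r2 := h'.rA_ne hw
  have r3 := h''.rA_ne hw
  fin_cases i <;>
    simp only [Fin.reduceFinMk, Fin.zero_eta, Fin.mk_one, co_rp0 h'' h' _ hw, co_rp1 h'' h' _ hw,
      co_rp2 h'' h' _ hw, co_rp3 h'' h' _ hw, co_rp4 h'' h' _ hw, co_rp5 h'' h' _ hw,
      co_rp0 h' h _ hw, co_rp1 h' h _ hw, co_rp2 h' h _ hw, co_rp3 h' h _ hw, co_rp4 h' h _ hw,
      co_rp5 h' h _ hw, co_rp0 h'' h _ hw, co_rp1 h'' h _ hw, co_rp2 h'' h _ hw,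
      co_rp3 h'' h _ hw, co_rp4 h'' h _ hw, co_rp5 h'' h _ hw, c1, c2, c4, mu, ← rA_sq α,
      ← rA_sq α', ← rA_sq α''] <;> field_simp <;> ring

theorem rp_self (h : Prof a b α) (J : Fin 6 → WA) (i : Fin 6) :
    WEq (Icc a b) (rp a b α α J i) (J i) := by
  intro k w hw
  have r1 := h.rA_ne hw
  fin_cases i <;>
    simp [co_rp0 h h _ hw, co_rp1 h h _ hw, co_rp2 h h _ hw, co_rp3 h h _ hw, co_rp4 h h _ hw,
      co_rp5 h h _ hw, c1, c2, c4, mu, r1]

theorem rp_congr (h' : Prof a b α') (h : Prof a b α) {b' : ℝ} (hb : b' ≤ b) {J J' : Fin 6 → WA}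
    (e : ∀ i, WEq (Icc a b') (J i) (J' i)) (i : Fin 6) :
    WEq (Icc a b') (rp a b α' α J i) (rp a b' α' α J' i) := by
  intro k w hw
  have hw' : w ∈ Icc a b := ⟨hw.1, hw.2.trans hb⟩
  have g' := h'.mono hb
  have g := h.mono hb
  fin_cases i <;>
    simp only [Fin.reduceFinMk, Fin.zero_eta, Fin.mk_one, co_rp0 h' h _ hw', co_rp1 h' h _ hw',
      co_rp2 h' h _ hw', co_rp3 h' h _ hw', co_rp4 h' h _ hw', co_rp5 h' h _ hw',
      co_rp0 g' g _ hw, co_rp1 g' g _ hw, co_rp2 g' g _ hw, co_rp3 g' g _ hw, co_rp4 g' g _ hw,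
      co_rp5 g' g _ hw, e _ k w hw]

lemma co_ab (L : ℝ) (J : Fin 6 → WA) (i : Fin 6) (k : ℤ) (w : ℝ) :
    (ab a L α J i).co k w = (rp a L 0 α J i).co k (cl a L w) := rfl

theorem ab_congr {L : ℝ} (hL : a ≤ L) (h : Prof a L α) {J J' : Fin 6 → WA}
    (e : ∀ i, WEq (Icc a L) (J i) (J' i)) : ab a L α J = ab a L α J' := by
  funext i
  refine ext'' fun k w => ?_
  rw [co_ab, co_ab]
  exact rp_congr (Prof.zero h.pos) h le_rfl e i k _ (cl_mem hL w)

/-- the absolute jets do not depend on the profile -/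
theorem ab_rp {L : ℝ} (hL : a ≤ L) (hLb : L ≤ b) (h' : Prof a b α') (h : Prof a b α)
    (J : Fin 6 → WA) : ab a L α' (rp a b α' α J) = ab a L α J := by
  rw [ab_congr hL (h'.mono hLb) (rp_congr h' h hLb (J' := J) fun _ _ _ _ => rfl)]
  funext i
  refine ext'' fun k w => ?_
  rw [co_ab, co_ab]
  exact rp_rp (Prof.zero h.pos) (h'.mono hLb) (h.mono hLb) J i k _ (cl_mem hL w)

theorem ab_zero {L : ℝ} (ha : 0 < a) (hL : a ≤ L) (J : Fin 6 → WA) (i : Fin 6) :
    ab a L 0 J i = comp (cl a L) (J i) :=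
  ext'' fun k w => rp_self (Prof.zero ha) J i k _ (cl_mem hL w)

/-- restriction of absolute jets -/
theorem comp_ab {L L' : ℝ} (hL : a ≤ L) (hL' : L ≤ L') (h : Prof a L' α) (J : Fin 6 → WA)
    (i : Fin 6) : comp (cl a L) (ab a L' α J i) = ab a L α J i := by
  refine ext'' fun k w => ?_
  have m := cl_mem hL w
  rw [co_comp, co_ab, co_ab, cl_of_mem ⟨m.1, m.2.trans hL'⟩]
  exact rp_congr (Prof.zero h.pos) h hL' (fun _ _ _ _ => rfl) i k _ m

end Vale.Agent.P218CH
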