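import Vale.Agent.P218EN.Cyl
import Vale.Agent.P218CH.Rp
import Vale.Agent.P218TP.GDefs

/-! The end problem with a collar source: definitions and the output for the core problem. -/

namespace Vale.Agent.P218CH
open Set Complex Metric Vale.Agent.P218EN Vale.Agent.P218EN.WA
open Vale.Agent.P218TP (GG)

variable {V : Type*} [NormedAddCommGroup V] [NormedSpace ℂ V]

/-- extension by constants of the restriction to `[a, L]` -/
noncomputable def clp (a L : ℝ) (J : Fin 6 → WA) : Fin 6 → WA := fun i => comp (cl a L) (J i)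

/-- The collar source `Cf (v, J)`, `J` absolute jets; it vanishes above the level `s`. The set
`RV` consists of the real inputs. -/
structure Collar (a s r R : ℝ) (RV : Set V) (Cf : V × (Fin 6 → WA) → WA) : Prop where
  R_pos : 0 < R
  R_le : R ≤ 1
  big : 10 ^ 30 ≤ R ^ 2 * a
  le : a ≤ s
  le' : s ≤ a + 10
  pos : 0 < r
  holo : DifferentiableOn ℂ Cf (ball 0 r ×ˢ univ)
  bd : ∀ v ∈ ball (0 : V) r, ∀ J ∈ ball (0 : Fin 6 → WA) (10 * (R * ep a)),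
    ‖Cf (v, J)‖ ≤ R * ep a / 10 ^ 12
  supp : ∀ v J k w, s ≤ w → (Cf (v, J)).co k w = 0
  real : ∀ v ∈ RV, ∀ J, cj (Cf (v, J)) = Cf (v, fun i => cj (J i))

/-- the absolute jets `JS` of the end of the shrinker on `[a, ∞)` -/
structure SEnd (a R : ℝ) (JS : Fin 6 → WA) : Prop where
  jet : ∀ b, a ≤ b → Jet a b (Af 0) JS
  eq : ∀ b, a ≤ b → WEq (Icc a b) (EE a b 0 JS) 0
  bdS : ∀ i, Bd (Ici a) (om a 0) (om a 0) (JS i) (R / 10 ^ 12)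
  realS : ∀ i, cj (JS i) = JS i

/-- the input of the end problem -/
structure EndIn (a s r R K : ℝ) (RV : Set V) (Cf : V × (Fin 6 → WA) → WA) (JS : Fin 6 → WA) : Prop
    extends Collar a s r R RV Cf, SEnd a R JS where
  hK : a ≤ K
  zero : WEq (Icc a s) (Cf (0, clp a s JS)) 0

/-- the projection to the modes `|k| ≥ 2` -/
noncomputable def hi : WA →L[ℂ] WA :=
  diag (fun k => if 2 ≤ kp (-2) k then 1 else 0) 1 fun k => by split_ifs <;> simp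

/-- Dirichlet data (those of `JS`, in absolute terms) and vanishing pins -/
noncomputable def xi (a : ℝ) (JS : Fin 6 → WA) (α : ℂ) : WA := mu α 0 a • hi (JS 0 - JS 2)

/-- the source in the normalisation of the profile `α` -/
noncomputable def src (a s : ℝ) (Cf : V × (Fin 6 → WA) → WA) (α : ℂ) (v : V) (J : Fin 6 → WA) :
    WA := fn a s (fun w => mu α 0 w ^ 2) * Cf (v, ab a s α J)

/-- The solutions `J W (α, v)` of the end problem on `[a, W]`. -/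
structure EndFam (a s r R K : ℝ) (RV : Set V) (Cf : V × (Fin 6 → WA) → WA) (JS : Fin 6 → WA)
    (J : ℝ → ℂ × V → Fin 6 → WA) : Prop where
  holo : ∀ W, a ^ 2 ≤ W → DifferentiableOn ℂ (J W) (D W K ×ˢ ball 0 r)
  clamp : ∀ W, a ^ 2 ≤ W → ∀ q ∈ D W K ×ˢ ball (0 : V) r, Clamp a W (J W q)
  bd : ∀ W, a ^ 2 ≤ W → ∀ q ∈ D W K ×ˢ ball (0 : V) r, ∀ i,
    Bd (Icc a W) (sg a q.1) (om a q.1) (J W q i) (R / 8)
  sol : ∀ W, a ^ 2 ≤ W → ∀ q ∈ D W K ×ˢ ball (0 : V) r,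
    Sol a W q.1 (J W q) (src a s Cf q.1 q.2 (J W q)) (xi a JS q.1) 0
  uniq : ∀ W, a ^ 2 ≤ W → ∀ q ∈ D W K ×ˢ ball (0 : V) r, ∀ J', Clamp a W J' →
    (∀ i, Bd (Icc a W) (sg a q.1) (om a q.1) (J' i) R) →
    Sol a W q.1 J' (src a s Cf q.1 q.2 J') (xi a JS q.1) 0 → J' = J W q
  real : ∀ W, a ^ 2 ≤ W → ∀ q ∈ D W K ×ˢ ball (0 : V) r, q.1.im = 0 → q.2 ∈ RV → ∀ i,
    cj (J W q i) = J W q i

/-- the quadratic polynomial in the tip function -/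
noncomputable def Yt (Y : Fin 3 → V → Fin 6 → WA) (g : ℂ) (v : V) : Fin 6 → WA :=
  Y 0 v + g • Y 1 v + g ^ 2 • Y 2 v

/-- its derivative at the origin -/
noncomputable def Yl (Y : Fin 3 → V → Fin 6 → WA) (g : ℂ) (v : V) : Fin 6 → WA :=
  g • Y 1 0 + fderiv ℂ (Y 0) 0 v

/-- the defect in the equation on `[a, L]`, in absolute terms -/
noncomputable def dfc (a s L : ℝ) (Cf : V × (Fin 6 → WA) → WA) (v : V) (J : Fin 6 → WA) : WA :=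
  comp (cl a L) (EE a L 0 J - Cf (v, clp a s J))

/-- The canonical expansion of the absolute jets on `[a, L]`, for every `L ≥ L0`. -/
structure Can (a s r K L0 : ℝ) (RV : Set V) (Cf : V × (Fin 6 → WA) → WA) (JS : Fin 6 → WA)
    (J : ℝ → ℂ × V → Fin 6 → WA) (Y : ℝ → Fin 3 → V → Fin 6 → WA) : Prop where
  le : s ≤ L0
  holo : ∀ L, L0 ≤ L → ∀ n, DifferentiableOn ℂ (Y L n) (ball 0 r)
  bdd : ∀ L, L0 ≤ L → ∃ B : ℝ, ∀ n, ∀ v ∈ ball (0 : V) r, ‖Y L n v‖ ≤ B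
  can : ∀ L, L0 ≤ L → ∃ C W1 : ℝ, ∀ W, W1 ≤ W → ∀ q ∈ D W K ×ˢ ball (0 : V) r,
    ‖ab a L q.1 (J W q) - Yt (Y L) (GG W q.1) q.2‖ ≤ C * W ^ (-(2 + 1 / 8) : ℝ)
  compat : ∀ L L', L0 ≤ L → L ≤ L' → ∀ n, ∀ v ∈ ball (0 : V) r, clp a L (Y L' n v) = Y L n v
  real : ∀ L, L0 ≤ L → ∀ n, ∀ v ∈ ball (0 : V) r, v ∈ RV → ∀ i, cj (Y L n v i) = Y L n v i
  zero : ∀ L, L0 ≤ L → Y L 0 0 = clp a L JS
  jet : ∀ L, L0 ≤ L → ∀ n, ∀ v ∈ ball (0 : V) r, Jet a L (Af 0) (Y L n v)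
  eq0 : ∀ L, L0 ≤ L → ∀ v ∈ ball (0 : V) r, dfc a s L Cf v (Y L 0 v) = 0
  dir : ∀ L, L0 ≤ L → ∀ n, ∀ v ∈ ball (0 : V) r, ∀ k, 2 ≤ kp (-2) k →
    (Y L n v 0).co k a = if n = 0 then (JS 0).co k a else 0
  bd0 : ∀ L, L0 ≤ L → ∀ v ∈ ball (0 : V) r, ‖Y L 0 v‖ ≤ ep a
  grow : ∀ L, L0 ≤ L → ∀ v ∈ ball (0 : V) r, ∀ w ∈ Icc L0 L, ∀ θ,
    ‖(Y L 1 v 0).ev w θ + w / 2‖ ≤ w / 4
  ljet : ∀ L, L0 ≤ L → ∀ g v, Jet a L (Af 0) (Yl (Y L) g v)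
  ldir : ∀ L, L0 ≤ L → ∀ g v k, 2 ≤ kp (-2) k → (Yl (Y L) g v 0).co k a = 0
  leq : ∀ L, L0 ≤ L → ∀ g v,
    HasDerivAt (fun t : ℂ => dfc a s L Cf (t • v) (clp a L JS + t • Yl (Y L) g v)) 0 0

end Vale.Agent.P218CH
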